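import Mathlib

/-!
Completely reducible groups of complex matrices: normal subgroups, abelian subgroups.
-/

open Matrix

namespace Vale.Agent.P002

variable {r : ℕ}

/-- A subspace stable under a set of matrices. -/
def Stable (S : Set (Matrix (Fin r) (Fin r) ℂ)) (U : Submodule ℂ (Fin r → ℂ)) : Prop :=
  ∀ a ∈ S, ∀ v ∈ U, a *ᵥ v ∈ U

/-- Every stable subspace has a stable complement. -/
def CR (S : Set (Matrix (Fin r) (Fin r) ℂ)) : Prop :=
  ∀ U, Stable S U → ∃ W, Stable S W ∧ IsCompl U W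

/-- A minimal nonzero stable subspace. -/
def Simple (S : Set (Matrix (Fin r) (Fin r) ℂ)) (U : Submodule ℂ (Fin r → ℂ)) : Prop :=
  Stable S U ∧ U ≠ ⊥ ∧ ∀ U', Stable S U' → U' ≤ U → U' ≠ ⊥ → U' = U

lemma Stable.sup {S : Set (Matrix (Fin r) (Fin r) ℂ)} {U W : Submodule ℂ (Fin r → ℂ)}
    (hU : Stable S U) (hW : Stable S W) : Stable S (U ⊔ W) := by
  intro a ha v hv
  obtain ⟨u, hu, w, hw, rfl⟩ := Submodule.mem_sup.1 hv
  rw [mulVec_add]
  exact Submodule.add_mem_sup (hU a ha u hu) (hW a ha w hw)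

lemma Stable.inf {S : Set (Matrix (Fin r) (Fin r) ℂ)} {U W : Submodule ℂ (Fin r → ℂ)}
    (hU : Stable S U) (hW : Stable S W) : Stable S (U ⊓ W) :=
  fun a ha v hv => ⟨hU a ha v hv.1, hW a ha v hv.2⟩

lemma Stable.mono {S T : Set (Matrix (Fin r) (Fin r) ℂ)} {U : Submodule ℂ (Fin r → ℂ)}
    (hU : Stable T U) (h : S ⊆ T) : Stable S U :=
  fun a ha => hU a (h ha)

lemma exists_simple_le (S : Set (Matrix (Fin r) (Fin r) ℂ)) {U : Submodule ℂ (Fin r → ℂ)}
    (hU : Stable S U) (hne : U ≠ ⊥) : ∃ V, V ≤ U ∧ Simple S V := by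
  obtain ⟨V, ⟨hVU, hVs, hVne⟩, hmin⟩ := WellFounded.has_min
    (InvImage.wf (fun V : Submodule ℂ (Fin r → ℂ) => Module.finrank ℂ V) Nat.lt_wfRel.wf)
    {V | V ≤ U ∧ Stable S V ∧ V ≠ ⊥} ⟨U, le_rfl, hU, hne⟩
  refine ⟨V, hVU, hVs, hVne, fun V' hs hle hne' => ?_⟩
  by_contra hne2
  exact hmin V' ⟨hle.trans hVU, hs, hne'⟩
    (Submodule.finrank_lt_finrank_of_lt (lt_of_le_of_ne hle hne2))

/-- A space spanned by simple subspaces is completely reducible. -/
lemma cr_of_sSup {S : Set (Matrix (Fin r) (Fin r) ℂ)}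
    (h : sSup {V | Simple S V} = ⊤) : CR S := by
  intro U hU
  obtain ⟨W, ⟨hWs, hd⟩, hmax⟩ := WellFounded.has_min
    (InvImage.wf (fun W : Submodule ℂ (Fin r → ℂ) => r - Module.finrank ℂ W) Nat.lt_wfRel.wf)
    {W | Stable S W ∧ Disjoint U W}
    ⟨⊥, fun a _ v hv => by simp [(Submodule.mem_bot ℂ).1 hv], disjoint_bot_right⟩
  refine ⟨W, hWs, hd, ?_⟩
  rw [codisjoint_iff]
  by_contra hne
  obtain ⟨V, hV, hVle⟩ : ∃ V, Simple S V ∧ ¬ V ≤ U ⊔ W := by
    by_contra h'
    push Not at h'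
    exact hne (top_le_iff.1 (h ▸ sSup_le h'))
  have hVd : (U ⊔ W) ⊓ V = ⊥ := by
    by_contra h'
    have := hV.2.2 _ ((hU.sup hWs).inf hV.1) inf_le_right h'
    exact hVle (this ▸ inf_le_left)
  have hd' : Disjoint U (W ⊔ V) :=
    Disjoint.disjoint_sup_right_of_disjoint_sup_left hd (disjoint_iff.2 hVd)
  refine hmax (W ⊔ V) ⟨hWs.sup hV.1, hd'⟩ ?_
  have hlt : W < W ⊔ V := by
    refine lt_of_le_of_ne le_sup_left fun he => ?_
    exact hVle ((he ▸ le_sup_right : V ≤ W).trans le_sup_right)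
  have h1 := Submodule.finrank_lt_finrank_of_lt hlt
  have h2 : Module.finrank ℂ ↥(W ⊔ V) ≤ r := by
    simpa using Submodule.finrank_le (W ⊔ V)
  show r - Module.finrank ℂ ↥(W ⊔ V) < r - Module.finrank ℂ W
  omega

/-- Complete reducibility passes to normal subgroups: the normalised set is arbitrary. -/
lemma cr_normal {S T : Set (Matrix (Fin r) (Fin r) ℂ)} (hT : CR T) (hST : S ⊆ T)
    (hinv : ∀ h ∈ T, IsUnit h.det)
    (hnorm : ∀ h ∈ T, ∀ a ∈ S, (∃ a' ∈ S, a * h = h * a') ∧ ∃ a' ∈ S, h * a = a' * h) :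
    CR S := by
  apply cr_of_sSup
  by_contra hne
  have hsoc : Stable T (sSup {V | Simple S V}) := by
    intro h hh v hv
    have hle : sSup {V | Simple S V} ≤
        (sSup {V | Simple S V}).comap (Matrix.mulVecLin h) := by
      refine sSup_le fun V hV => ?_
      rw [← Submodule.map_le_iff_le_comap]
      refine le_sSup_of_le ?_ le_rfl
      set f := Matrix.mulVecLin h with hf
      have hinj : Function.Injective f :=
        Matrix.mulVec_injective_of_isUnit ((Matrix.isUnit_iff_isUnit_det h).2 (hinv h hh))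
      refine ⟨?_, ?_, ?_⟩
      · rintro a ha _ ⟨v, hv, rfl⟩
        obtain ⟨a', ha', he⟩ := (hnorm h hh a ha).1
        refine ⟨a' *ᵥ v, hV.1 a' ha' v hv, ?_⟩
        simp only [hf, Matrix.mulVecLin_apply, mulVec_mulVec, he]
      · intro h0
        exact hV.2.1 (Submodule.map_injective_of_injective hinj (h0.trans (Submodule.map_bot f).symm))
      · intro U' hs' hle' hne'
        have hU' : Submodule.map f (U'.comap f) = U' := Submodule.map_comap_eq_self
          (hle'.trans LinearMap.map_le_range)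
        have hst : Stable S (U'.comap f) := by
          intro a ha v hv
          obtain ⟨a', ha', he⟩ := (hnorm h hh a ha).2
          show h *ᵥ (a *ᵥ v) ∈ U'
          rw [mulVec_mulVec, he, ← mulVec_mulVec]
          exact hs' a' ha' _ hv
        have : U'.comap f = V := hV.2.2 _ hst
          (fun v hv => by
            obtain ⟨w, hw, he⟩ := hle' hv
            exact hinj he ▸ hw)
          (fun h0 => hne' (by rw [← hU', h0, Submodule.map_bot]))
        rw [← hU', this]
    exact hle hv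
  obtain ⟨C, hCs, hC⟩ := hT _ hsoc
  have hCne : C ≠ ⊥ := fun h0 => hne (by simpa [h0] using hC.sup_eq_top)
  obtain ⟨V, hVC, hV⟩ := exists_simple_le S (hCs.mono hST) hCne
  exact hV.2.1 (le_bot_iff.1 (hC.disjoint (le_sSup hV) hVC))

/-- In a completely reducible set, every vector space is spanned by the simple subspaces. -/
lemma sSup_simple_eq_top {S : Set (Matrix (Fin r) (Fin r) ℂ)} (hS : CR S) :
    sSup {V | Simple S V} = ⊤ := by
  have hs : Stable S (sSup {V | Simple S V}) := by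
    intro a ha
    have hle : sSup {V | Simple S V} ≤
        (sSup {V | Simple S V}).comap (Matrix.mulVecLin a) :=
      sSup_le fun V hV v hv => le_sSup (show V ∈ {V | Simple S V} from hV) (hV.1 a ha v hv)
    exact fun v hv => hle hv
  obtain ⟨C, hCs, hC⟩ := hS _ hs
  by_contra hne
  have hCne : C ≠ ⊥ := fun h0 => hne (by simpa [h0] using hC.sup_eq_top)
  obtain ⟨V, hVC, hV⟩ := exists_simple_le S hCs hCne
  exact hV.2.1 (le_bot_iff.1 (hC.disjoint (le_sSup hV) hVC))

/-- A commuting completely reducible set is simultaneously diagonalisable. -/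
lemma exists_diag {S : Set (Matrix (Fin r) (Fin r) ℂ)} (hS : CR S)
    (hcomm : ∀ a ∈ S, ∀ a' ∈ S, a * a' = a' * a) :
    ∃ P : Matrix (Fin r) (Fin r) ℂ, IsUnit P.det ∧
      ∀ a ∈ S, ∃ d : Fin r → ℂ, a * P = P * Matrix.diagonal d := by
  set E : Set (Fin r → ℂ) := {v | ∀ a ∈ S, ∃ c : ℂ, a *ᵥ v = c • v} with hE
  have hspan : Submodule.span ℂ E = ⊤ := by
    rw [← top_le_iff, ← sSup_simple_eq_top hS]
    refine sSup_le fun V hV v hv => Submodule.subset_span fun a ha => ?_
    set f : Module.End ℂ V := (Matrix.mulVecLin a).restrict fun w hw => hV.1 a ha w hw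
    have : Nontrivial V := Submodule.nontrivial_iff_ne_bot.2 hV.2.1
    obtain ⟨c, hc⟩ := Module.End.exists_eigenvalue f
    obtain ⟨w, hw⟩ := hc.exists_hasEigenvector
    refine ⟨c, ?_⟩
    let U' : Submodule ℂ (Fin r → ℂ) :=
      V ⊓ LinearMap.ker (Matrix.mulVecLin a - c • LinearMap.id)
    have hs : Stable S U' := by
      intro a' ha' u hu
      have h1 : a *ᵥ u = c • u := by simpa [sub_eq_zero] using hu.2
      refine ⟨hV.1 a' ha' u hu.1, ?_⟩
      simp only [SetLike.mem_coe, LinearMap.mem_ker, LinearMap.sub_apply, Matrix.mulVecLin_apply,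
        LinearMap.smul_apply, LinearMap.id_apply, sub_eq_zero]
      rw [mulVec_mulVec, hcomm a ha a' ha', ← mulVec_mulVec, h1, mulVec_smul]
    have hwU : (w : Fin r → ℂ) ∈ U' := by
      refine ⟨w.2, ?_⟩
      have h1 := congrArg (Subtype.val) hw.apply_eq_smul
      have h2 : a *ᵥ (w : Fin r → ℂ) = c • (w : Fin r → ℂ) := h1
      simpa [sub_eq_zero] using h2
    have : U' = V := hV.2.2 U' hs inf_le_left fun h0 => hw.2
      (Subtype.ext ((Submodule.mem_bot ℂ).1 (h0 ▸ hwU)))
    have hv' : v ∈ U' := this.symm ▸ hv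
    simpa [sub_eq_zero] using hv'.2
  let B := Module.Basis.ofSpan hspan.ge
  have hcard : Fintype.card (Fin r) = Module.finrank ℂ (Fin r → ℂ) := by simp
  have := FiniteDimensional.fintypeBasisIndex B
  let e := Fintype.equivFinOfCardEq
    ((Module.finrank_eq_card_basis B).symm.trans (Module.finrank_fin_fun ℂ))
  let B' := B.reindex e
  refine ⟨(Pi.basisFun ℂ (Fin r)).toMatrix B', ?_, fun a ha => ?_⟩
  · exact (Matrix.isUnit_iff_isUnit_det _).1
      (letI := (Pi.basisFun ℂ (Fin r)).invertibleToMatrix B'; isUnit_of_invertible _)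
  · have hmem : ∀ j, B' j ∈ E := fun j => by
      have := Module.Basis.ofSpan_subset hspan.ge ⟨e.symm j, rfl⟩
      simpa [B', B] using this
    choose d hd using fun j => hmem j a ha
    refine ⟨d, ?_⟩
    ext i j
    rw [Matrix.mul_diagonal]
    have := congrFun (hd j) i
    simpa [Module.Basis.toMatrix_apply, Matrix.mul_apply, Matrix.mulVec, dotProduct,
      mul_comm] using this

/-- A diagonal set of invertible matrices is completely reducible. -/
lemma cr_of_diag {S : Set (Matrix (Fin r) (Fin r) ℂ)} {P : Matrix (Fin r) (Fin r) ℂ}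
    (hP : IsUnit P.det) (h : ∀ a ∈ S, ∃ d : Fin r → ℂ, a * P = P * Matrix.diagonal d) :
    CR S := by
  apply cr_of_sSup
  rw [← top_le_iff]
  intro v _
  have hv : v = ∑ j, (P⁻¹ *ᵥ v) j • (fun i => P i j) := by
    conv_lhs => rw [show v = P *ᵥ (P⁻¹ *ᵥ v) by
      rw [mulVec_mulVec, Matrix.mul_nonsing_inv _ hP, one_mulVec]]
    ext i
    simp [Matrix.mulVec, dotProduct, mul_comm]
  rw [hv]
  refine Submodule.sum_mem _ fun j _ => Submodule.smul_mem _ _ ?_
  by_cases h0 : (fun i => P i j) = 0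
  · rw [h0]; exact Submodule.zero_mem _
  suffices hs : Simple S (Submodule.span ℂ {fun i => P i j}) from
    (le_sSup (show _ ∈ {V | Simple S V} from hs) :
      Submodule.span ℂ {fun i => P i j} ≤ sSup {V | Simple S V})
      (Submodule.mem_span_singleton_self _)
  refine ⟨?_, by simpa using h0, fun U' _ hle hne => ?_⟩
  · intro a ha u hu
    obtain ⟨c, rfl⟩ := Submodule.mem_span_singleton.1 hu
    obtain ⟨d, hd⟩ := h a ha
    rw [mulVec_smul]
    refine Submodule.smul_mem _ _ (Submodule.mem_span_singleton.2 ⟨d j, ?_⟩)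
    ext i
    have := congrFun (congrFun hd i) j
    rw [Matrix.mul_diagonal, Matrix.mul_apply] at this
    simp only [Matrix.mulVec, dotProduct, this, Pi.smul_apply, smul_eq_mul]
    ring
  · exact ((nonzero_span_atom _ h0).le_iff.1 hle).resolve_left hne

end Vale.Agent.P002
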