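import Mathlib

/-!
Block monomial data for representations with a diagonalised normal subgroup, and their finitely
many algebraic models.
-/

open Matrix

namespace Vale.Agent.P002

/-- The field of algebraic numbers inside `ℂ`. -/
noncomputable abbrev Qb : IntermediateField ℚ ℂ := algebraicClosure ℚ ℂ

/-- Block map, permutations of blocks, and root-of-unity factor system. -/
abbrev Datum (Q : Type) (r n : ℕ) : Type :=
  Σ b : Fin r → Fin r,
    (Q → Equiv.Perm (Set.range b)) × (Q → Q → Set.range b → {z : ℂ // z ^ n = 1})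

variable {Q : Type} [Group Q] {r n : ℕ}

/-- The block of an index. -/
def lab (D : Datum Q r n) (i : Fin r) : Set.range D.1 := ⟨D.1 i, i, rfl⟩

omit [Group Q] in
lemma lab_surjective (D : Datum Q r n) : Function.Surjective (lab D) := by
  rintro ⟨_, i, rfl⟩
  exact ⟨i, rfl⟩

/-- The diagonal matrix which is scalar on each block. -/
noncomputable def blockDiag (D : Datum Q r n) (u : Set.range D.1 → ℂ) :
    Matrix (Fin r) (Fin r) ℂ :=
  Matrix.diagonal fun i => u (lab D i)

/-- The matrices realise the datum. -/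
def IsW (D : Datum Q r n) (w : Q → Matrix (Fin r) (Fin r) ℂ) : Prop :=
  (∀ a, IsUnit (w a).det) ∧ (∀ a i j, w a i j ≠ 0 → lab D j = D.2.1 a (lab D i)) ∧
    ∀ a a', w a * w a' = blockDiag D (fun l => (D.2.2 a a' l).1) * w (a * a')

lemma IsW.comm {D : Datum Q r n} {w : Q → Matrix (Fin r) (Fin r) ℂ} (hw : IsW D w) (a : Q)
    (u : Set.range D.1 → ℂ) :
    w a * blockDiag D u = blockDiag D (fun l => u (D.2.1 a l)) * w a := by
  ext i j
  simp only [blockDiag, Matrix.mul_diagonal, Matrix.diagonal_mul]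
  by_cases h : w a i j = 0
  · simp [h]
  · rw [← hw.2.1 a i j h, mul_comm]

lemma IsW.inv_comm {D : Datum Q r n} {w : Q → Matrix (Fin r) (Fin r) ℂ} (hw : IsW D w) (a : Q)
    (u : Set.range D.1 → ℂ) :
    (w a)⁻¹ * blockDiag D (fun l => u (D.2.1 a l)) = blockDiag D u * (w a)⁻¹ := by
  have h := congrArg (fun M => (w a)⁻¹ * M * (w a)⁻¹) (hw.comm a u)
  simp only [← Matrix.mul_assoc, Matrix.nonsing_inv_mul _ (hw.1 a), one_mul] at h
  rw [h, Matrix.mul_assoc, Matrix.mul_nonsing_inv _ (hw.1 a), mul_one]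

/-- Two models are intertwined by the averaged matrix. -/
lemma intertwine [Fintype Q] {D : Datum Q r n}
    {w w0 : Q → Matrix (Fin r) (Fin r) ℂ} (hw : IsW D w) (hw0 : IsW D w0)
    (hP : (∑ a, w a * (w0 a)⁻¹).det ≠ 0) :
    ∃ P : Matrix (Fin r) (Fin r) ℂ, IsUnit P.det ∧
      (∀ u, P * blockDiag D u = blockDiag D u * P) ∧ ∀ a, w a * P = P * w0 a := by
  have hc : ∀ a u, w a * (w0 a)⁻¹ * blockDiag D u = blockDiag D u * (w a * (w0 a)⁻¹) := by
    intro a u
    have h1 := hw0.inv_comm a (fun l => u ((D.2.1 a).symm l))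
    simp only [Equiv.symm_apply_apply] at h1
    have h2 := hw.comm a (fun l => u ((D.2.1 a).symm l))
    simp only [Equiv.symm_apply_apply] at h2
    rw [Matrix.mul_assoc, h1, ← Matrix.mul_assoc, h2, Matrix.mul_assoc]
  refine ⟨∑ a, w a * (w0 a)⁻¹, isUnit_iff_ne_zero.2 hP, fun u => ?_, fun h => ?_⟩
  · rw [Matrix.sum_mul, Matrix.mul_sum]
    exact Finset.sum_congr rfl fun a _ => hc a u
  · have key : ∀ a, w h * (w a * (w0 a)⁻¹) = w (h * a) * (w0 (h * a))⁻¹ * w0 h := by
      intro a
      calc w h * (w a * (w0 a)⁻¹)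
          = blockDiag D (fun l => (D.2.2 h a l).1) *
              (w (h * a) * (w0 (h * a))⁻¹ * w0 (h * a)) * (w0 a)⁻¹ := by
            rw [← Matrix.mul_assoc, hw.2.2, Matrix.nonsing_inv_mul_cancel_right _ _ (hw0.1 _)]
        _ = w (h * a) * (w0 (h * a))⁻¹ *
              (blockDiag D (fun l => (D.2.2 h a l).1) * w0 (h * a)) * (w0 a)⁻¹ := by
            rw [← Matrix.mul_assoc (blockDiag D _), ← hc]
            simp only [Matrix.mul_assoc]
        _ = _ := by
            rw [← hw0.2.2, Matrix.mul_assoc, Matrix.mul_assoc (w0 h),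
              Matrix.mul_nonsing_inv _ (hw0.1 a), mul_one]
    rw [Matrix.mul_sum, Matrix.sum_mul, Finset.sum_congr rfl fun a _ => key a]
    exact Equiv.sum_comp (Equiv.mulLeft h) fun a => w a * (w0 a)⁻¹ * w0 h

/-- Finitely many algebraic models reach every model up to conjugation commuting with blocks. -/
theorem exists_models [Fintype Q] (D : Datum Q r n) (hn : n ≠ 0) :
    ∃ W : Finset (Q → Matrix (Fin r) (Fin r) Qb),
      (∀ w0 ∈ W, IsW D fun a => (w0 a).map (fun z : Qb => (z : ℂ))) ∧
      ∀ w, IsW D w → ∃ w0 ∈ W, ∃ P : Matrix (Fin r) (Fin r) ℂ, IsUnit P.det ∧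
        (∀ u, P * blockDiag D u = blockDiag D u * P) ∧
        ∀ a, w a * P = P * (w0 a).map (fun z : Qb => (z : ℂ)) := by
  classical
  let V := Q × Bool × Fin r × Fin r
  let R := MvPolynomial V Qb
  have hcalg : ∀ a a' l, (D.2.2 a a' l).1 ∈ Qb := fun a a' l => by
    rw [mem_algebraicClosure_iff]
    refine ⟨Polynomial.X ^ n - 1, ?_, by simp [(D.2.2 a a' l).2]⟩
    exact (Polynomial.monic_X_pow_sub_C (1 : ℚ) hn).ne_zero
  let c : Q → Q → Fin r → Qb := fun a a' i => ⟨(D.2.2 a a' (lab D i)).1, hcalg a a' _⟩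
  let X : Q → Bool → Matrix (Fin r) (Fin r) R :=
    fun a s => Matrix.of fun i j => MvPolynomial.X (a, s, i, j)
  let dg : Q → Q → Matrix (Fin r) (Fin r) R :=
    fun a a' => Matrix.diagonal fun k => MvPolynomial.C (c a a' k)
  let eqs : Set R :=
    {f | ∃ a i j, f = (X a true * X a false - 1) i j} ∪
    {f | ∃ a i j, lab D j ≠ D.2.1 a (lab D i) ∧ f = X a true i j} ∪
    {f | ∃ a a' i j, f = (X a true * X a' true -
      dg a a' * X (a * a') true) i j}
  let Sol : Set (V → Qb) := {x | ∀ f ∈ eqs, MvPolynomial.aeval x f = 0}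
  let M : (V → Qb) → Q → Bool → Matrix (Fin r) (Fin r) Qb :=
    fun x a s => Matrix.of fun i j => x (a, s, i, j)
  let δ : (V → Qb) → R := fun x =>
    (∑ a, X a true * (M x a false).map MvPolynomial.C).det
  have hXM : ∀ (x : V → Qb) a s, (X a s).map (MvPolynomial.aeval x) = M x a s := fun x a s => by
    ext i j; simp [X, M]
  -- any zero over the algebraic numbers yields a model
  have hmodel : ∀ (x : V → Qb), x ∈ Sol →
      IsW D (fun a => (M x a true).map (fun z : Qb => (z : ℂ))) ∧
      ∀ a, M x a true * M x a false = 1 := by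
    intro x hx
    have h1 : ∀ a, M x a true * M x a false = 1 := by
      intro a
      ext i j
      have := hx _ (Or.inl (Or.inl ⟨a, i, j, rfl⟩))
      have h2 : ((X a true * X a false - 1).map (MvPolynomial.aeval x)) i j = 0 := this
      rw [Matrix.map_sub _ (map_sub _), Matrix.map_mul, hXM, hXM,
        Matrix.map_one _ (map_zero _) (map_one _)] at h2
      exact congrArg Subtype.val (sub_eq_zero.1 h2)
    refine ⟨⟨fun a => ?_, fun a i j hne => ?_, fun a a' => ?_⟩, h1⟩
    · have h2 : ((M x a true).map (algebraMap Qb ℂ)) * (M x a false).map (algebraMap Qb ℂ) = 1 := by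
        rw [← Matrix.map_mul, h1, Matrix.map_one _ (map_zero _) (map_one _)]
      exact Matrix.isUnit_det_of_right_inverse h2
    · by_contra hl
      have := hx _ (Or.inl (Or.inr ⟨a, i, j, hl, rfl⟩))
      exact hne (by simpa [X, M] using this)
    · ext i j
      have h3 := hx _ (Or.inr ⟨a, a', i, j, rfl⟩)
      have h2 : ((X a true * X a' true -
          dg a a' * X (a * a') true).map
            (MvPolynomial.aeval x)) i j = 0 := h3
      rw [Matrix.map_sub _ (map_sub _), Matrix.map_mul, Matrix.map_mul, hXM, hXM, hXM,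
        Matrix.diagonal_map (map_zero (MvPolynomial.aeval x))] at h2
      have h4 := congrArg (fun z : Qb => (z : ℂ)) (sub_eq_zero.1 h2)
      simpa [Matrix.mul_apply, blockDiag, Matrix.diagonal_apply, Function.comp_def, c] using h4
  let J : Ideal R := Ideal.span (eqs ∪ δ '' Sol)
  have hJ : J = ⊤ := by
    have : MvPolynomial.zeroLocus Qb J = ∅ := by
      rw [Set.eq_empty_iff_forall_notMem]
      intro x hx
      have hsol : x ∈ Sol := fun f hf => hx f (Ideal.subset_span (Or.inl hf))
      have h0 := hx _ (Ideal.subset_span (Or.inr ⟨x, hsol, rfl⟩))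
      rw [AlgHom.map_det, AlgHom.mapMatrix_apply] at h0
      have h1 : (∑ a, X a true * (M x a false).map MvPolynomial.C).map (MvPolynomial.aeval x) =
          (Fintype.card Q : Qb) • (1 : Matrix (Fin r) (Fin r) Qb) := by
        have : ∀ a, (X a true * (M x a false).map MvPolynomial.C).map (MvPolynomial.aeval x) =
            1 := fun a => by
          rw [Matrix.map_mul, hXM, Matrix.map_map]
          refine Eq.trans ?_ ((hmodel x hsol).2 a)
          congr 1
          refine Matrix.ext fun i j => ?_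
          show MvPolynomial.aeval x (MvPolynomial.C (σ := V) (M x a false i j)) = _
          rw [MvPolynomial.aeval_C]; rfl
        rw [← AlgHom.mapMatrix_apply, map_sum]
        simp [this, Finset.sum_const, ← Nat.cast_smul_eq_nsmul Qb]
      rw [h1, Matrix.det_smul, Matrix.det_one, mul_one] at h0
      exact pow_ne_zero _ (Nat.cast_ne_zero.2 Fintype.card_ne_zero) h0
    have hac : IsAlgClosed Qb := (algebraicClosure.isAlgClosure ℚ ℂ).isAlgClosed
    have h := MvPolynomial.vanishingIdeal_zeroLocus_eq_radical (K := Qb) J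
    rw [this, MvPolynomial.vanishingIdeal_empty] at h
    exact Ideal.radical_eq_top.1 h.symm
  obtain ⟨T, hT, h1T⟩ := Submodule.mem_span_finite_of_mem_span
    (show (1 : R) ∈ Submodule.span R (eqs ∪ δ '' Sol) from
      (show (1 : R) ∈ J from hJ ▸ Submodule.mem_top))
  have hx : ∀ f : R, f ∈ δ '' Sol → ∃ x, x ∈ Sol ∧ δ x = f := fun f hf => hf
  choose xf hxfS hxfδ using hx
  let T' : Finset {f : R // f ∈ δ '' Sol} := T.subtype fun f => f ∈ δ '' Sol
  refine ⟨T'.image fun f => fun a => M (xf f.1 f.2) a true, ?_, fun w hw => ?_⟩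
  · intro w0 hw0
    obtain ⟨f, -, rfl⟩ := Finset.mem_image.1 hw0
    exact (hmodel _ (hxfS f.1 f.2)).1
  let y : V → ℂ := fun v => if v.2.1 then w v.1 v.2.2.1 v.2.2.2 else (w v.1)⁻¹ v.2.2.1 v.2.2.2
  have hXy : ∀ a s, (X a s).map (MvPolynomial.aeval y) = if s then w a else (w a)⁻¹ := by
    intro a s; ext i j; cases s <;> simp [X, y]
  have heqs : ∀ f ∈ eqs, MvPolynomial.aeval y f = 0 := by
    rintro f ((⟨a, i, j, rfl⟩ | ⟨a, i, j, hl, rfl⟩) | ⟨a, a', i, j, rfl⟩)
    · show ((X a true * X a false - 1).map (MvPolynomial.aeval y)) i j = 0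
      rw [Matrix.map_sub _ (map_sub _), Matrix.map_mul, hXy, hXy,
        Matrix.map_one _ (map_zero _) (map_one _)]
      simp [Matrix.mul_nonsing_inv _ (hw.1 a)]
    · by_contra h0
      exact hl (hw.2.1 a i j (by simpa [X, y] using h0))
    · show ((X a true * X a' true -
          dg a a' * X (a * a') true).map
            (MvPolynomial.aeval y)) i j = 0
      rw [Matrix.map_sub _ (map_sub _), Matrix.map_mul, Matrix.map_mul, hXy, hXy, hXy,
        Matrix.diagonal_map (map_zero _)]
      simp only [if_true, Matrix.sub_apply, sub_eq_zero]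
      rw [hw.2.2 a a']
      simp [blockDiag, c]
      refine Or.inl ?_
      show _ = MvPolynomial.aeval y (MvPolynomial.C (σ := V) _)
      rw [MvPolynomial.aeval_C]; rfl
  obtain ⟨f, hfT, hfne⟩ : ∃ f ∈ T, MvPolynomial.aeval y f ≠ 0 := by
    by_contra h
    push Not at h
    have hle : Submodule.span R (T : Set R) ≤
        RingHom.ker (MvPolynomial.aeval y : R →ₐ[Qb] ℂ) := Submodule.span_le.2 h
    have h2 : MvPolynomial.aeval y (1 : R) = 0 := hle h1T
    exact one_ne_zero (map_one (MvPolynomial.aeval y : R →ₐ[Qb] ℂ) ▸ h2)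
  rcases hT hfT with hf | hf
  · exact absurd (heqs f hf) hfne
  · refine ⟨_, Finset.mem_image.2 ⟨⟨f, hf⟩, Finset.mem_subtype.2 hfT, rfl⟩, ?_⟩
    have hm := hmodel (xf f hf) (hxfS f hf)
    apply intertwine hw hm.1
    rw [← hxfδ f hf, AlgHom.map_det, AlgHom.mapMatrix_apply] at hfne
    convert hfne using 2
    rw [← AlgHom.mapMatrix_apply, map_sum]
    refine Finset.sum_congr rfl fun a _ => ?_
    have hinv : ((M (xf f hf) a true).map (fun z : Qb => (z : ℂ)))⁻¹ =
        (M (xf f hf) a false).map (algebraMap Qb ℂ) := by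
      apply Matrix.inv_eq_right_inv
      show (M (xf f hf) a true).map (algebraMap Qb ℂ) * _ = 1
      rw [← Matrix.map_mul, hm.2, Matrix.map_one _ (map_zero _) (map_one _)]
    rw [AlgHom.mapMatrix_apply, Matrix.map_mul, hXy, hinv, Matrix.map_map]
    congr 1
    ext i j
    simp

end Vale.Agent.P002

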