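import Mathlib

/-!
Points of character varieties: coordinates of representations into `SL_r`, semisimplicity,
invariant polynomials, integral points and boundary conditions.
-/

open Matrix

namespace Vale.Agent.P002

variable {Γ : Type} [Group Γ] {r : ℕ}

/-- The matrix entries of a representation, as a point of `ℂ^(Γ × r × r)`. -/
def coord (ρ : Γ →* SpecialLinearGroup (Fin r) ℂ) : Γ × Fin r × Fin r → ℂ :=
  fun x => (ρ x.1).1 x.2.1 x.2.2

/-- Every invariant subspace of `ℂ^r` has an invariant complement. -/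
def Semisimple (ρ : Γ →* SpecialLinearGroup (Fin r) ℂ) : Prop :=
  ∀ U : Submodule ℂ (Fin r → ℂ), (∀ g, ∀ v ∈ U, (ρ g).1 *ᵥ v ∈ U) →
    ∃ W : Submodule ℂ (Fin r → ℂ), (∀ g, ∀ v ∈ W, (ρ g).1 *ᵥ v ∈ W) ∧ IsCompl U W

/-- A polynomial in the matrix entries whose value on representations is unchanged by
conjugation. -/
def Invariant {R : Type} [CommRing R] [Algebra R ℂ]
    (F : MvPolynomial (Γ × Fin r × Fin r) R) : Prop :=
  ∀ (ρ : Γ →* SpecialLinearGroup (Fin r) ℂ) (P : SpecialLinearGroup (Fin r) ℂ),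
    MvPolynomial.aeval (coord ((MulAut.conj P).toMonoidHom.comp ρ)) F =
      MvPolynomial.aeval (coord ρ) F

/-- All eigenvalues are roots of unity. -/
def QuasiUnipotent (M : SpecialLinearGroup (Fin r) ℂ) : Prop :=
  ∀ z : ℂ, M.1.charpoly.IsRoot z → ∃ n : ℕ, 0 < n ∧ z ^ n = 1

/-- A semisimple representation sending each `γ j` into the conjugacy class of `M j`. -/
def InY {s : ℕ} (γ : Fin s → Γ) (M : Fin s → SpecialLinearGroup (Fin r) ℂ)
    (ρ : Γ →* SpecialLinearGroup (Fin r) ℂ) : Prop :=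
  Semisimple ρ ∧ ∀ j, ∃ P : SpecialLinearGroup (Fin r) ℂ, ρ (γ j) = P * M j * P⁻¹

/-- All integer invariant polynomials take values in the integers of `L`. -/
def IntegralPoint (L : IntermediateField ℚ ℂ) (ρ : Γ →* SpecialLinearGroup (Fin r) ℂ) : Prop :=
  ∀ F : MvPolynomial (Γ × Fin r × Fin r) ℤ, Invariant F →
    MvPolynomial.aeval (coord ρ) F ∈ L ∧ IsIntegral ℤ (MvPolynomial.aeval (coord ρ) F)

end Vale.Agent.P002
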