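import Vale.Agent.P002.Uniform

/-!
Averaging: groups diagonal on a finite-index normal subgroup are semisimple; conjugacy of
diagonalisable matrices by characteristic polynomials.
-/

open Matrix

namespace Vale.Agent.P002

variable {Γ : Type} [Group Γ] {r : ℕ}

/-- A representation diagonal on a normal subgroup of finite index is semisimple. -/
theorem semisimple_of_diag (ρ : Γ →* SpecialLinearGroup (Fin r) ℂ) (K : Subgroup Γ)
    [hKn : K.Normal] [K.FiniteIndex] {P : Matrix (Fin r) (Fin r) ℂ} (hP : IsUnit P.det)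
    (hd : ∀ k ∈ K, ∃ d : Fin r → ℂ, (ρ k).1 * P = P * Matrix.diagonal d) : Semisimple ρ := by
  classical
  intro U hU
  let R : Γ →* Matrix (Fin r) (Fin r) ℂ :=
    { toFun := fun g => (ρ g).1
      map_one' := by rw [map_one]; rfl
      map_mul' := fun g h => by rw [map_mul]; rfl }
  obtain ⟨W, hW, hUW⟩ := cr_of_diag (S := R '' (K : Set Γ)) hP
    (by rintro _ ⟨k, hk, rfl⟩; exact hd k hk) U
    (by rintro _ ⟨k, -, rfl⟩ v hv; exact hU k v hv)
  let PU : Matrix (Fin r) (Fin r) ℂ :=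
    LinearMap.toMatrix' (U.subtype.comp (U.projectionOnto W hUW))
  have hPU : ∀ v, PU *ᵥ v = (U.projectionOnto W hUW v : Fin r → ℂ) := fun v => by
    rw [← Matrix.toLin'_apply, Matrix.toLin'_toMatrix']; rfl
  have hPUK : ∀ k ∈ K, R k * PU = PU * R k := by
    intro k hk
    apply Matrix.ext_of_mulVec_single
    intro i
    set v : Fin r → ℂ := Pi.single i 1
    obtain ⟨u, hu, w, hw, hv⟩ := Submodule.mem_sup.1
      (show v ∈ U ⊔ W by rw [hUW.sup_eq_top]; exact Submodule.mem_top)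
    have h1 : ∀ u ∈ U, ∀ w ∈ W, PU *ᵥ (u + w) = u := by
      intro u hu w hw
      rw [hPU, map_add, Submodule.projectionOnto_apply_left hUW ⟨u, hu⟩,
        Submodule.projectionOnto_apply_right hUW ⟨w, hw⟩]
      simp
    rw [← Matrix.mulVec_mulVec, ← Matrix.mulVec_mulVec, ← hv, Matrix.mulVec_add (R k), h1 u hu w hw,
      h1 (R k *ᵥ u) (hU k u hu) _ (hW _ ⟨k, hk, rfl⟩ w hw)]
  have := Fintype.ofFinite (Γ ⧸ K)
  let T : Γ → Matrix (Fin r) (Fin r) ℂ := fun g => R g * PU * R g⁻¹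
  have hT : ∀ g k, k ∈ K → T (g * k) = T g := by
    intro g k hk
    simp only [T, _root_.mul_inv_rev, map_mul]
    calc R g * R k * PU * (R k⁻¹ * R g⁻¹) = R g * (R k * PU * R k⁻¹) * R g⁻¹ := by
          simp only [Matrix.mul_assoc]
      _ = _ := by
          rw [hPUK k hk, Matrix.mul_assoc PU, ← map_mul, mul_inv_cancel, map_one, mul_one]
  let A : Matrix (Fin r) (Fin r) ℂ := (Fintype.card (Γ ⧸ K) : ℂ)⁻¹ • ∑ a : Γ ⧸ K, T a.out
  have hAg : ∀ g, R g * A = A * R g := by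
    intro g
    simp only [A, Matrix.mul_smul, Matrix.smul_mul, Matrix.mul_sum, Matrix.sum_mul]
    congr 1
    rw [← Equiv.sum_comp (Equiv.mulLeft (QuotientGroup.mk g : Γ ⧸ K))
      (fun a => T a.out * R g)]
    refine Finset.sum_congr rfl fun a _ => ?_
    obtain ⟨k, hk⟩ : ∃ k ∈ K, ((QuotientGroup.mk g : Γ ⧸ K) * a).out = g * a.out * k := by
      refine ⟨(g * a.out)⁻¹ * ((QuotientGroup.mk g : Γ ⧸ K) * a).out, ?_, by group⟩
      rw [← QuotientGroup.eq]
      simp
    rw [Equiv.coe_mulLeft, hk.2, hT _ _ hk.1]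
    simp only [T, _root_.mul_inv_rev, map_mul, Matrix.mul_assoc]
    rw [← map_mul R g⁻¹ g, inv_mul_cancel, map_one, mul_one]
  have hrange : ∀ v, A *ᵥ v ∈ U := by
    intro v
    simp only [A, Matrix.smul_mulVec, Matrix.sum_mulVec]
    refine U.smul_mem _ (U.sum_mem fun a _ => ?_)
    simp only [T, ← Matrix.mulVec_mulVec]
    exact hU _ _ (by rw [hPU]; exact Submodule.coe_mem _)
  have hfix : ∀ u ∈ U, A *ᵥ u = u := by
    intro u hu
    have : ∀ a : Γ ⧸ K, T a.out *ᵥ u = u := by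
      intro a
      simp only [T, ← Matrix.mulVec_mulVec]
      rw [hPU, Submodule.projectionOnto_apply_left hUW ⟨R a.out⁻¹ *ᵥ u, hU _ u hu⟩]
      show R a.out *ᵥ (R a.out⁻¹ *ᵥ u) = u
      rw [Matrix.mulVec_mulVec, ← map_mul, mul_inv_cancel, map_one, Matrix.one_mulVec]
    simp only [A, Matrix.smul_mulVec, Matrix.sum_mulVec, this, Finset.sum_const, Finset.card_univ]
    rw [← Nat.cast_smul_eq_nsmul ℂ, smul_smul,
      inv_mul_cancel₀ (Nat.cast_ne_zero.2 Fintype.card_ne_zero), one_smul]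
  refine ⟨LinearMap.ker (Matrix.mulVecLin A), fun g v hv => ?_, ?_⟩
  · simp only [LinearMap.mem_ker, Matrix.mulVecLin_apply] at hv ⊢
    show A *ᵥ (R g *ᵥ v) = 0
    rw [Matrix.mulVec_mulVec, ← hAg, ← Matrix.mulVec_mulVec, hv, Matrix.mulVec_zero]
  · let f : (Fin r → ℂ) →ₗ[ℂ] U := (Matrix.mulVecLin A).codRestrict U hrange
    have hk : LinearMap.ker f = LinearMap.ker (Matrix.mulVecLin A) := LinearMap.ker_codRestrict _ _ _
    rw [← hk]
    exact LinearMap.isCompl_of_proj fun u => Subtype.ext (hfix u.1 u.2)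

/-- Every matrix in a representation diagonal on a finite-index normal subgroup is
diagonalisable. -/
theorem diag_of_diag (ρ : Γ →* SpecialLinearGroup (Fin r) ℂ) (K : Subgroup Γ)
    [hKn : K.Normal] [K.FiniteIndex] {P : Matrix (Fin r) (Fin r) ℂ} (hP : IsUnit P.det)
    (hd : ∀ k ∈ K, ∃ d : Fin r → ℂ, (ρ k).1 * P = P * Matrix.diagonal d) (g : Γ) :
    ∃ Q : Matrix (Fin r) (Fin r) ℂ, IsUnit Q.det ∧
      ∃ d : Fin r → ℂ, (ρ g).1 * Q = Q * Matrix.diagonal d := by
  have hss := semisimple_of_diag (ρ.comp (Subgroup.zpowers g).subtype)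
    (K.subgroupOf (Subgroup.zpowers g)) hP fun k hk => hd k.1 hk
  obtain ⟨Q, hQ, h⟩ := exists_diag (cr_range hss) (by
    rintro _ ⟨⟨_, a, rfl⟩, rfl⟩ _ ⟨⟨_, b, rfl⟩, rfl⟩
    refine congrArg Subtype.val (show ρ (g ^ a) * ρ (g ^ b) = ρ (g ^ b) * ρ (g ^ a) from ?_)
    rw [← map_mul, ← map_mul, ← _root_.zpow_add, ← _root_.zpow_add, add_comm])
  exact ⟨Q, hQ, h _ ⟨⟨g, Subgroup.mem_zpowers g⟩, rfl⟩⟩

lemma charpoly_of_diag {A P : Matrix (Fin r) (Fin r) ℂ} (hP : IsUnit P.det) {d : Fin r → ℂ}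
    (h : A * P = P * Matrix.diagonal d) :
    A.charpoly = ∏ i, (Polynomial.X - Polynomial.C (d i)) := by
  obtain ⟨u, rfl⟩ := (Matrix.isUnit_iff_isUnit_det P).2 hP
  rw [← Units.eq_mul_inv_iff_mul_eq] at h
  rw [h, Matrix.coe_units_inv, Matrix.charpoly_units_conj, Matrix.charpoly_diagonal]

/-- Scaling to determinant one. -/
lemma exists_scale {P : Matrix (Fin r) (Fin r) ℂ} (hP : IsUnit P.det) :
    ∃ μ : ℂ, μ ≠ 0 ∧ (μ • P).det = 1 := by
  rcases Nat.eq_zero_or_pos r with h0 | hpos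
  · subst h0
    exact ⟨1, one_ne_zero, by simp⟩
  · obtain ⟨μ, hμ⟩ := IsAlgClosed.exists_pow_nat_eq P.det⁻¹ hpos
    refine ⟨μ, fun h => hP.ne_zero ?_, ?_⟩
    · rw [h, zero_pow hpos.ne'] at hμ
      exact inv_eq_zero.1 hμ.symm
    · rw [Matrix.det_smul, Fintype.card_fin, hμ, inv_mul_cancel₀ hP.ne_zero]

/-- Intertwined elements of `SL_r` are conjugate in `SL_r`. -/
lemma exists_conj {A B : SpecialLinearGroup (Fin r) ℂ} {P : Matrix (Fin r) (Fin r) ℂ}
    (hP : IsUnit P.det) (h : A.1 * P = P * B.1) :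
    ∃ Q : SpecialLinearGroup (Fin r) ℂ, A = Q * B * Q⁻¹ := by
  obtain ⟨μ, -, hμ⟩ := exists_scale hP
  refine ⟨⟨μ • P, hμ⟩, eq_mul_inv_of_mul_eq (Subtype.ext ?_)⟩
  show A.1 * (μ • P) = (μ • P) * B.1
  rw [Matrix.mul_smul, Matrix.smul_mul, h]

/-- Diagonalisable matrices with the same characteristic polynomial are conjugate. -/
theorem conj_of_charpoly {A B : SpecialLinearGroup (Fin r) ℂ} {P Q : Matrix (Fin r) (Fin r) ℂ}
    (hP : IsUnit P.det) (hQ : IsUnit Q.det) {a b : Fin r → ℂ}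
    (hA : A.1 * P = P * Matrix.diagonal a) (hB : B.1 * Q = Q * Matrix.diagonal b)
    (h : A.1.charpoly = B.1.charpoly) :
    ∃ R : SpecialLinearGroup (Fin r) ℂ, A = R * B * R⁻¹ := by
  classical
  rw [charpoly_of_diag hP hA, charpoly_of_diag hQ hB] at h
  have hm : (Finset.univ.val.map a) = Finset.univ.val.map b := by
    have e : ∀ c : Fin r → ℂ, (∏ i, (Polynomial.X - Polynomial.C (c i))).roots =
        Finset.univ.val.map c := fun c => by
      rw [Finset.prod_eq_multiset_prod,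
        ← Polynomial.roots_multiset_prod_X_sub_C (Finset.univ.val.map c), Multiset.map_map]
      rfl
    rw [← e a, h, e b]
  have hc : ∀ z, Fintype.card {i // b i = z} = Fintype.card {i // a i = z} := by
    intro z
    have hz := congrArg (Multiset.count z) hm
    simp only [Multiset.count_map, ← Finset.filter_val, Finset.card_val, eq_comm (a := z)] at hz
    rw [Fintype.card_subtype, Fintype.card_subtype, hz]
  let σ : Fin r ≃ Fin r := Equiv.ofFiberEquiv fun z => Fintype.equivOfCardEq (hc z)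
  have hσ : ∀ i, a (σ i) = b i := fun i => Equiv.ofFiberEquiv_map _ i
  set P' : Matrix (Fin r) (Fin r) ℂ := P.submatrix id σ
  have hP' : IsUnit P'.det := by
    rw [show P' = P.submatrix id σ from rfl, Matrix.det_permute']
    exact ((Int.cast_ne_zero.2 (Units.ne_zero _)).isUnit).mul hP
  have hA' : A.1 * P' = P' * Matrix.diagonal b := by
    ext i j
    have := congrFun (congrFun hA i) (σ j)
    rw [Matrix.mul_diagonal] at this
    rw [Matrix.mul_diagonal, ← hσ j]
    simpa [P', Matrix.mul_apply] using this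
  refine exists_conj (P := P' * Q⁻¹) ?_ ?_
  · rw [Matrix.det_mul]
    exact hP'.mul (Matrix.isUnit_nonsing_inv_det _ hQ)
  · rw [← Matrix.mul_assoc, hA', Matrix.mul_assoc, Matrix.mul_assoc]
    congr 1
    have h2 := congrArg (fun M => Q⁻¹ * M * Q⁻¹) hB
    simp only [← Matrix.mul_assoc, Matrix.nonsing_inv_mul _ hQ, one_mul] at h2
    rw [Matrix.mul_assoc _ B.1, Matrix.mul_assoc] at h2
    rw [← h2, Matrix.mul_assoc, Matrix.mul_nonsing_inv _ hQ, mul_one]

end Vale.Agent.P002
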