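import Mathlib

/-!
Solution sets of monomial equations with torsion right hand sides, and density of unit points.
-/

namespace Vale.Agent.P002

variable {X : Type}

/-- The value of a monomial at a point of the torus. -/
noncomputable def monoVal (t : X → ℂˣ) : (X →₀ ℤ) →+ Additive ℂˣ :=
  Finsupp.liftAddHom fun x => zmultiplesHom (Additive ℂˣ) (Additive.ofMul (t x))

lemma monoVal_single (t : X → ℂˣ) (x : X) (k : ℤ) :
    monoVal t (Finsupp.single x k) = Additive.ofMul (t x ^ k) := by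
  simp [monoVal, ofMul_zpow]

/-- Solutions of a finitely determined torsion monomial system lie in torsion translates of
parametrised tori of solutions. -/
theorem exists_family (R : Set (X →₀ ℤ)) (S : Finset X)
    (hS : ∀ x, Finsupp.single x 1 ∈
      AddSubgroup.closure R ⊔ AddSubgroup.closure ((fun y => Finsupp.single y 1) '' (S : Set X))) :
    ∃ (a N : ℕ) (ψ : X → Fin a → ℤ), N ≠ 0 ∧
      ∀ (M : ℕ) (t : X → ℂˣ), (∀ ρ ∈ R, M • monoVal t ρ = 0) →
        ∃ (ω : X → ℂˣ) (z0 : Fin a → ℂˣ), (∀ x, ω x ^ (N * M) = 1) ∧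
          (∀ x, t x = ω x * ∏ k, z0 k ^ ψ x k) ∧
          ∀ (z : Fin a → ℂˣ), ∀ ρ ∈ R,
            monoVal (fun x => ω x * ∏ k, z k ^ ψ x k) ρ = monoVal t ρ := by
  classical
  let q : (X →₀ ℤ) →+ (X →₀ ℤ) ⧸ AddSubgroup.closure R := QuotientAddGroup.mk' _
  have hfg : AddGroup.FG ((X →₀ ℤ) ⧸ AddSubgroup.closure R) := by
    rw [AddGroup.fg_iff]
    refine ⟨(q ∘ fun y => Finsupp.single y 1) '' (S : Set X), ?_, S.finite_toSet.image _⟩
    rw [Set.image_comp, ← AddMonoidHom.map_closure, eq_top_iff]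
    rintro v -
    obtain ⟨u, rfl⟩ := QuotientAddGroup.mk'_surjective (AddSubgroup.closure R) v
    induction u using Finsupp.induction_linear with
    | zero => exact ⟨0, AddSubgroup.zero_mem _, rfl⟩
    | add f g hf hg => rw [map_add]; exact AddSubgroup.add_mem _ hf hg
    | single x k =>
      have h1 : q (Finsupp.single x 1) ∈ (AddSubgroup.closure
          ((fun y => Finsupp.single y 1) '' (S : Set X))).map q := by
        have h2 : q (Finsupp.single x 1) ∈ (AddSubgroup.closure R ⊔ AddSubgroup.closure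
            ((fun y => Finsupp.single y 1) '' (S : Set X))).map q := ⟨_, hS x, rfl⟩
        rwa [AddSubgroup.map_sup, (AddSubgroup.map_eq_bot_iff _).2
          (le_of_eq (QuotientAddGroup.ker_mk' _).symm), bot_sup_eq] at h2
      have := AddSubgroup.zsmul_mem _ h1 k
      rwa [← map_zsmul, Finsupp.smul_single, smul_eq_mul, mul_one] at this
  obtain ⟨a, ι, _, p, hp, e, ⟨f⟩⟩ :=
    AddCommGroup.equiv_free_prod_directSum_zmod ((X →₀ ℤ) ⧸ AddSubgroup.closure R)
  have : ∀ i, NeZero (p i ^ e i) := fun i => ⟨pow_ne_zero _ (hp i).ne_zero⟩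
  let T := DirectSum ι fun i => ZMod (p i ^ e i)
  have hT : Finite T := Finite.of_equiv _ (DFinsupp.equivFunOnFintype (β := fun i => ZMod (p i ^ e i))).symm
  let ψh : (X →₀ ℤ) →+ (Fin a →₀ ℤ) := (AddMonoidHom.fst _ _).comp (f.toAddMonoidHom.comp q)
  have hψR : ∀ u ∈ AddSubgroup.closure R, ψh u = 0 := fun u hu => by
    simp [ψh, q, (QuotientAddGroup.eq_zero_iff u).2 hu]
  choose E hE using fun k : Fin a =>
    QuotientAddGroup.mk'_surjective (AddSubgroup.closure R) (f.symm (Finsupp.single k 1, 0))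
  let ψ : X → Fin a → ℤ := fun x => ψh (Finsupp.single x 1)
  refine ⟨a, Nat.card T, ψ, Nat.card_ne_zero.2 ⟨inferInstance, hT⟩, fun M t ht => ?_⟩
  let z0 : Fin a → ℂˣ := fun k => (monoVal t (E k)).toMul
  let res : (X →₀ ℤ) → (X →₀ ℤ) := fun u => u - ∑ k, ψh u k • E k
  have hres : ∀ u, Nat.card T • res u ∈ AddSubgroup.closure R := by
    intro u
    rw [← QuotientAddGroup.eq_zero_iff]
    apply f.injective
    show f (q (Nat.card T • res u)) = f 0
    have h1 : ∀ k, f (q (E k)) = (Finsupp.single k 1, 0) := fun k => by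
      rw [show q (E k) = _ from hE k, f.apply_symm_apply]
    have h2 : (f (q (res u))).1 = 0 := by
      simp only [res, map_sub, map_sum, map_zsmul, h1, Prod.fst_sub, Prod.fst_sum, Prod.smul_fst,
        Finsupp.smul_single, smul_eq_mul, mul_one, sub_eq_zero]
      exact (Finsupp.univ_sum_single (ψh u)).symm
    rw [map_nsmul, map_nsmul, map_zero]
    refine Prod.ext ?_ ?_
    · rw [Prod.smul_fst, h2, nsmul_zero]; rfl
    · rw [Prod.smul_snd]
      exact card_nsmul_eq_zero'
  have htR : ∀ u ∈ AddSubgroup.closure R, M • monoVal t u = 0 := by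
    intro u hu
    induction hu using AddSubgroup.closure_induction with
    | mem x hx => exact ht x hx
    | zero => simp
    | add x y _ _ hx hy => rw [map_add, nsmul_add, hx, hy, add_zero]
    | neg x _ hx => rw [map_neg, neg_nsmul, hx, neg_zero]
  let ω : X → ℂˣ := fun x => (monoVal t (res (Finsupp.single x 1))).toMul
  have hω : ∀ x, Additive.ofMul (ω x) = monoVal t (Finsupp.single x 1) -
      ∑ k, ψ x k • monoVal t (E k) := fun x => by
    simp [ω, res, map_sub, map_sum, map_zsmul, ψ]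
  refine ⟨ω, z0, fun x => ?_, fun x => ?_, fun z => ?_⟩
  · apply Additive.ofMul.injective
    rw [ofMul_pow, ofMul_one, mul_comm, mul_nsmul']
    have := htR _ (hres (Finsupp.single x 1))
    rwa [map_nsmul] at this
  · apply Additive.ofMul.injective
    rw [ofMul_mul, ofMul_prod, hω, monoVal_single, zpow_one]
    simp [z0, ofMul_zpow]
  · let ζ : (Fin a →₀ ℤ) →+ Additive ℂˣ :=
      Finsupp.liftAddHom fun k => zmultiplesHom (Additive ℂˣ)
        (Additive.ofMul (z k) - monoVal t (E k))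
    have key : monoVal (fun x => ω x * ∏ k, z k ^ ψ x k) = monoVal t + ζ.comp ψh := by
      refine Finsupp.addHom_ext fun x k => ?_
      have hk : Finsupp.single x k = k • Finsupp.single x (1 : ℤ) := by simp
      rw [hk, map_zsmul, map_zsmul]
      congr 1
      rw [AddMonoidHom.add_apply, monoVal_single, zpow_one, ofMul_mul, ofMul_prod, hω,
        AddMonoidHom.comp_apply]
      have : ζ (ψh (Finsupp.single x 1)) =
          ∑ k, ψ x k • (Additive.ofMul (z k) - monoVal t (E k)) := by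
        simp only [ζ, Finsupp.liftAddHom_apply, ψ]
        exact Finsupp.sum_fintype _ _ (by simp)
      rw [this]
      rw [Finset.sum_congr rfl fun k _ => zsmul_sub (Additive.ofMul (z k)) (monoVal t (E k)) (ψ x k),
        Finset.sum_sub_distrib]
      simp only [ofMul_zpow]
      abel
    intro ρ hρ
    rw [key, AddMonoidHom.add_apply, AddMonoidHom.comp_apply,
      hψR ρ (AddSubgroup.subset_closure hρ), map_zero, add_zero]

/-- Regular functions on the torus. -/
noncomputable def RegFun (a : ℕ) : Subalgebra ℂ ((Fin a → ℂˣ) → ℂ) :=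
  Algebra.adjoin ℂ (Set.range (fun (k : Fin a) (z : Fin a → ℂˣ) => ((z k : ℂˣ) : ℂ)) ∪
    Set.range (fun (k : Fin a) (z : Fin a → ℂˣ) => (((z k)⁻¹ : ℂˣ) : ℂ)))

lemma regFun_monomial {a : ℕ} (m : Fin a → ℤ) :
    (fun z : Fin a → ℂˣ => ((∏ k, z k ^ m k : ℂˣ) : ℂ)) ∈ RegFun a := by
  classical
  have : (fun z : Fin a → ℂˣ => ((∏ k, z k ^ m k : ℂˣ) : ℂ)) =
      ∏ k, fun z : Fin a → ℂˣ => ((z k ^ m k : ℂˣ) : ℂ) := by
    ext z; simp
  rw [this]
  refine prod_mem fun k _ => ?_
  obtain ⟨n, hn | hn⟩ := Int.eq_nat_or_neg (m k)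
  · have e : (fun z : Fin a → ℂˣ => ((z k ^ m k : ℂˣ) : ℂ)) =
        (fun z => ((z k : ℂˣ) : ℂ)) ^ n := by ext z; simp [hn]
    rw [e]
    exact pow_mem (show (fun z : Fin a → ℂˣ => ((z k : ℂˣ) : ℂ)) ∈ RegFun a from
      Algebra.subset_adjoin (Or.inl ⟨k, rfl⟩)) n
  · have e : (fun z : Fin a → ℂˣ => ((z k ^ m k : ℂˣ) : ℂ)) =
        (fun z => (((z k)⁻¹ : ℂˣ) : ℂ)) ^ n := by ext z; simp [hn]
    rw [e]
    exact pow_mem (show (fun z : Fin a → ℂˣ => (((z k)⁻¹ : ℂˣ) : ℂ)) ∈ RegFun a from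
      Algebra.subset_adjoin (Or.inr ⟨k, rfl⟩)) n

/-- A regular function vanishing on the powers of an element of infinite order vanishes. -/
theorem regFun_eq_zero {a : ℕ} {f : (Fin a → ℂˣ) → ℂ} (hf : f ∈ RegFun a) (u : ℂˣ)
    (hu : Function.Injective fun n : ℤ => u ^ n)
    (h : ∀ m : Fin a → ℤ, f (fun k => u ^ m k) = 0) : f = 0 := by
  have hpoly : ∃ (P : MvPolynomial (Fin a) ℂ) (N : ℕ), ∀ z : Fin a → ℂˣ,
      f z * (∏ k, ((z k : ℂˣ) : ℂ)) ^ N = MvPolynomial.eval (fun k => ((z k : ℂˣ) : ℂ)) P := by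
    clear h
    induction hf using Algebra.adjoin_induction with
    | mem g hg =>
      rcases hg with ⟨k, rfl⟩ | ⟨k, rfl⟩
      · exact ⟨MvPolynomial.X k, 0, fun z => by simp⟩
      · refine ⟨∏ j ∈ Finset.univ.erase k, MvPolynomial.X j, 1, fun z => ?_⟩
        simp [← Finset.mul_prod_erase Finset.univ _ (Finset.mem_univ k)]
    | algebraMap c => exact ⟨MvPolynomial.C c, 0, fun z => by simp⟩
    | add g g' _ _ hg hg' =>
      obtain ⟨P, N, hP⟩ := hg
      obtain ⟨P', N', hP'⟩ := hg'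
      refine ⟨P * (∏ k, MvPolynomial.X k) ^ N' + P' * (∏ k, MvPolynomial.X k) ^ N, N + N',
        fun z => ?_⟩
      simp only [Pi.add_apply, map_add, map_mul, map_pow, map_prod, MvPolynomial.eval_X,
        ← hP z, ← hP' z, pow_add]
      ring
    | mul g g' _ _ hg hg' =>
      obtain ⟨P, N, hP⟩ := hg
      obtain ⟨P', N', hP'⟩ := hg'
      refine ⟨P * P', N + N', fun z => ?_⟩
      simp only [Pi.mul_apply, map_mul, ← hP z, ← hP' z, pow_add]
      ring
  obtain ⟨P, N, hP⟩ := hpoly
  have hP0 : P = 0 := by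
    refine MvPolynomial.funext_set (fun _ : Fin a => Set.range fun n : ℤ => ((u ^ n : ℂˣ) : ℂ))
      (fun _ => Set.infinite_range_of_injective (Units.val_injective.comp hu)) fun x hx => ?_
    choose m hm using fun k => hx k (Set.mem_univ k)
    have := hP fun k => u ^ m k
    rw [h, zero_mul] at this
    rw [map_zero, this]
    rw [show x = fun k => ((u ^ m k : ℂˣ) : ℂ) from funext fun k => (hm k).symm]
  funext z
  have := hP z
  rw [hP0, map_zero] at this
  exact (mul_eq_zero.1 this).resolve_right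
    (pow_ne_zero _ (Finset.prod_ne_zero_iff.2 fun k _ => Units.ne_zero _))

end Vale.Agent.P002
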