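import Vale.Agent.P002.Data
import Vale.Agent.P002.Diagonalisable
import Vale.Agent.P002.Torus

/-!
The monomial system of a datum, and the representation attached to a solution.
-/

open Matrix

namespace Vale.Agent.P002

variable {Γ : Type} [Group Γ] {r s n : ℕ} {K : Subgroup Γ} [K.Normal]

/-- The defining monomials: multiplicativity, determinant, powers at the marked elements. -/
def Rel (D : Datum (Γ ⧸ K) r n) (γ : Fin s → Γ) (m : ℕ) :
    Set ((Γ × Set.range D.1) →₀ ℤ) :=
  {v | ∃ g h l, v = Finsupp.single (g, l) 1 +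
      Finsupp.single (h, D.2.1 (QuotientGroup.mk g) l) 1 - Finsupp.single (g * h, l) 1} ∪
  {v | ∃ g, v = ∑ i, Finsupp.single (g, lab D i) 1} ∪
  {v | ∃ j l, v = Finsupp.single (γ j ^ m, l) 1}

/-- The matrices of a solution. -/
noncomputable def twist (D : Datum (Γ ⧸ K) r n) (w : Γ ⧸ K → Matrix (Fin r) (Fin r) ℂ)
    (t : Γ × Set.range D.1 → ℂˣ) (g : Γ) : Matrix (Fin r) (Fin r) ℂ :=
  blockDiag D (fun l => (t (g, l) : ℂ)) * w (QuotientGroup.mk g)

lemma blockDiag_mul_blockDiag {Q : Type} [Group Q] (D : Datum Q r n)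
    (u v : Set.range D.1 → ℂ) :
    blockDiag D u * blockDiag D v = blockDiag D fun l => u l * v l :=
  Matrix.diagonal_mul_diagonal _ _

lemma IsW.mul_twist {D : Datum (Γ ⧸ K) r n} {w : Γ ⧸ K → Matrix (Fin r) (Fin r) ℂ} (hw : IsW D w)
    (t : Γ × Set.range D.1 → ℂˣ) (g h : Γ) :
    twist D w t g * twist D w t h = blockDiag D (fun l => (t (g, l) : ℂ) *
        (t (h, D.2.1 (QuotientGroup.mk g) l) : ℂ) *
        (D.2.2 (QuotientGroup.mk g) (QuotientGroup.mk h) l).1) * w (QuotientGroup.mk (g * h)) := by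
  simp only [twist]
  rw [← blockDiag_mul_blockDiag, ← blockDiag_mul_blockDiag, Matrix.mul_assoc _ (w _),
    ← Matrix.mul_assoc (w _), hw.comm, Matrix.mul_assoc (blockDiag D _) (w _), hw.2.2,
    QuotientGroup.mk_mul]
  simp only [Matrix.mul_assoc]

lemma cancel_w {D : Datum (Γ ⧸ K) r n} {w : Γ ⧸ K → Matrix (Fin r) (Fin r) ℂ} (hw : IsW D w)
    {a : Γ ⧸ K} {u v : Set.range D.1 → ℂ} (h : blockDiag D u * w a = blockDiag D v * w a)
    (l : Set.range D.1) : u l = v l := by
  obtain ⟨i, rfl⟩ := lab_surjective D l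
  have h1 := congrArg (fun M => (M * (w a)⁻¹) i i) h
  simp only [Matrix.mul_nonsing_inv_cancel_right _ _ (hw.1 a)] at h1
  simpa [blockDiag] using h1

lemma w_one {D : Datum (Γ ⧸ K) r n} {w : Γ ⧸ K → Matrix (Fin r) (Fin r) ℂ} (hw : IsW D w) :
    w 1 = blockDiag D fun l => (D.2.2 1 1 l).1 := by
  have h := congrArg (fun M => M * (w 1)⁻¹) (hw.2.2 1 1)
  simpa [Matrix.mul_assoc, Matrix.mul_nonsing_inv _ (hw.1 1)] using h

lemma det_w_pow [K.FiniteIndex] {D : Datum (Γ ⧸ K) r n} {w : Γ ⧸ K → Matrix (Fin r) (Fin r) ℂ}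
    (hw : IsW D w) (a : Γ ⧸ K) : ((w a).det ^ n) ^ K.index = 1 := by
  classical
  let d : Γ ⧸ K →* ℂ :=
    { toFun := fun a => (w a).det ^ n
      map_one' := by
        show (w 1).det ^ n = 1
        rw [w_one hw, blockDiag, Matrix.det_diagonal, ← Finset.prod_pow]
        exact Finset.prod_eq_one fun i _ => (D.2.2 1 1 (lab D i)).2
      map_mul' := fun a b => by
        rw [← mul_pow, ← Matrix.det_mul, hw.2.2, Matrix.det_mul, blockDiag, Matrix.det_diagonal,
          mul_pow _ (w (a * b)).det, ← Finset.prod_pow,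
          Finset.prod_eq_one fun i _ => (D.2.2 a b (lab D i)).2, one_mul] }
  show d a ^ K.index = 1
  rw [← map_pow, Subgroup.index, pow_card_eq_one', map_one]

/-- The right hand sides are torsion. -/
lemma rel_torsion [K.FiniteIndex] {D : Datum (Γ ⧸ K) r n}
    {w : Γ ⧸ K → Matrix (Fin r) (Fin r) ℂ} (hw : IsW D w) {t : Γ × Set.range D.1 → ℂˣ}
    {γ : Fin s → Γ} {m : ℕ}
    (hmul : ∀ g h, twist D w t g * twist D w t h = twist D w t (g * h))
    (hdet : ∀ g, (twist D w t g).det = 1) (hpow : ∀ j, twist D w t (γ j ^ m) = 1)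
    (hm : ∀ j, γ j ^ m ∈ K) :
    ∀ v ∈ Rel D γ m, (n * K.index) • monoVal t v = 0 := by
  intro v hv
  apply Additive.toMul.injective
  rw [toMul_nsmul, toMul_zero]
  apply Units.ext
  rw [Units.val_pow_eq_pow_val, Units.val_one]
  rcases hv with (⟨g, h, l, rfl⟩ | ⟨g, rfl⟩) | ⟨j, l, rfl⟩
  · simp only [map_add, map_sub, monoVal_single, zpow_one, toMul_sub, toMul_add, toMul_ofMul,
      Units.val_div_eq_div_val, Units.val_mul]
    have h1 := hmul g h
    rw [hw.mul_twist] at h1
    have h2 := cancel_w hw h1 l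
    set c := (D.2.2 (QuotientGroup.mk g) (QuotientGroup.mk h) l).1
    have hc : c ^ n = 1 := (D.2.2 (QuotientGroup.mk g) (QuotientGroup.mk h) l).2
    rw [div_pow, ← h2, mul_pow _ c, pow_mul c, hc, one_pow, mul_one]
    exact div_self (pow_ne_zero _ (mul_ne_zero (Units.ne_zero _) (Units.ne_zero _)))
  · simp only [map_sum, monoVal_single, zpow_one, ← ofMul_prod, toMul_ofMul, Units.coe_prod]
    have h1 := hdet g
    rw [twist, Matrix.det_mul, blockDiag, Matrix.det_diagonal] at h1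
    have h2 := congrArg (fun x => x ^ (n * K.index)) h1
    simp only [mul_pow, one_pow, pow_mul (w _).det, det_w_pow hw, mul_one] at h2
    exact h2
  · simp only [monoVal_single, zpow_one, toMul_ofMul]
    have h1 := hpow j
    rw [twist, (QuotientGroup.eq_one_iff _).2 (hm j), w_one hw, blockDiag_mul_blockDiag] at h1
    obtain ⟨i, rfl⟩ := lab_surjective D l
    have h2 := congrArg (fun x : Matrix (Fin r) (Fin r) ℂ => (x i i) ^ (n * K.index)) h1
    simp only [blockDiag, Matrix.diagonal_apply_eq, Matrix.one_apply_eq, mul_pow, one_pow,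
      pow_mul (D.2.2 1 1 _).1, (D.2.2 1 1 _).2, mul_one] at h2
    exact h2

/-- A point with the same monomials gives a representation. -/
lemma exists_rep {D : Datum (Γ ⧸ K) r n} {w : Γ ⧸ K → Matrix (Fin r) (Fin r) ℂ} (hw : IsW D w)
    {t t' : Γ × Set.range D.1 → ℂˣ} {γ : Fin s → Γ} {m : ℕ}
    (hmul : ∀ g h, twist D w t g * twist D w t h = twist D w t (g * h))
    (hdet : ∀ g, (twist D w t g).det = 1) (hpow : ∀ j, twist D w t (γ j ^ m) = 1)
    (h : ∀ v ∈ Rel D γ m, monoVal t' v = monoVal t v) :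
    ∃ ρ : Γ →* SpecialLinearGroup (Fin r) ℂ,
      (∀ g, (ρ g).1 = twist D w t' g) ∧ ∀ j, ρ (γ j) ^ m = 1 := by
  have e1 : ∀ g g' l, (t' (g, l) : ℂ) * t' (g', D.2.1 (QuotientGroup.mk g) l) *
      (D.2.2 (QuotientGroup.mk g) (QuotientGroup.mk g') l).1 = t' (g * g', l) := by
    intro g g' l
    have h2 := cancel_w hw ((hw.mul_twist t g g').symm.trans (hmul g g')) l
    have h1 := congrArg (fun u : Additive ℂˣ => (u.toMul : ℂ)) (h _ (Or.inl (Or.inl ⟨g, g', l, rfl⟩)))
    simp only [map_add, map_sub, monoVal_single, zpow_one, toMul_sub, toMul_add, toMul_ofMul,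
      Units.val_div_eq_div_val, Units.val_mul] at h1
    rw [div_eq_iff (Units.ne_zero _)] at h1
    rw [h1, div_mul_eq_mul_div, div_mul_eq_mul_div, div_eq_iff (Units.ne_zero _), ← h2]
    ring
  have hmul' : ∀ g g', twist D w t' g * twist D w t' g' = twist D w t' (g * g') := by
    intro g g'
    rw [hw.mul_twist]
    exact congrArg (fun f => blockDiag D f * w _) (funext fun l => e1 g g' l)
  have hdet' : ∀ g, (twist D w t' g).det = 1 := by
    intro g
    have h1 := congrArg (fun u : Additive ℂˣ => (u.toMul : ℂ)) (h _ (Or.inl (Or.inr ⟨g, rfl⟩)))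
    simp only [map_sum, monoVal_single, zpow_one, ← ofMul_prod, toMul_ofMul, Units.coe_prod] at h1
    rw [← hdet g, twist, twist, Matrix.det_mul, Matrix.det_mul, blockDiag, blockDiag,
      Matrix.det_diagonal, Matrix.det_diagonal, h1]
  let ρ : Γ →* SpecialLinearGroup (Fin r) ℂ :=
    MonoidHom.mk' (fun g => ⟨twist D w t' g, hdet' g⟩) fun g g' => Subtype.ext (hmul' g g').symm
  refine ⟨ρ, fun g => rfl, fun j => ?_⟩
  rw [← map_pow]
  refine Subtype.ext ?_
  show twist D w t' (γ j ^ m) = 1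
  have h1 : ∀ l, t' (γ j ^ m, l) = t (γ j ^ m, l) := fun l => by
    have := h _ (Or.inr ⟨j, l, rfl⟩)
    simpa [monoVal_single] using this
  rw [← hpow j]
  simp only [twist, h1]

end Vale.Agent.P002
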