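import Vale.Agent.P002.Defs
import Vale.Agent.P002.Data

/-!
Block monomial representations with algebraic models and unit coefficients are integral points.
-/

open Matrix

namespace Vale.Agent.P002

/-- An element lying in every valuation subring is an algebraic integer. -/
lemma isIntegral_of_forall_mem {x : ℂ} (h : ∀ V : ValuationSubring ℂ, x ∈ V) : IsIntegral ℤ x := by
  have h1 : x ∈ (integralClosure (Subring.closure (∅ : Set ℂ)) ℂ).toSubring := by
    rw [← iInf_valuationSubring_superset, Subring.mem_iInf]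
    exact fun V => h V.1
  have h2 : IsIntegral (Subring.closure (∅ : Set ℂ)) x := h1
  obtain ⟨P, hP, hx⟩ := h2
  have hlift : P.map (Subring.closure (∅ : Set ℂ)).subtype ∈
      Polynomial.lifts (Int.castRingHom ℂ) := by
    rw [Polynomial.lifts_iff_coeff_lifts]
    intro n
    rw [Polynomial.coeff_map]
    have hc := (P.coeff n).2
    simp only [Subring.closure_empty, Subring.mem_bot] at hc
    obtain ⟨m, hm⟩ := hc
    exact ⟨m, by simpa using hm⟩
  obtain ⟨Q, hQ, -, hQm⟩ := Polynomial.lifts_and_degree_eq_and_monic hlift (hP.map _)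
  refine ⟨Q, hQm, ?_⟩
  rw [← Polynomial.eval_map, show algebraMap ℤ ℂ = Int.castRingHom ℂ from rfl, hQ,
    Polynomial.eval_map]
  exact hx

lemma mem_of_isIntegral {x : ℂ} (hx : IsIntegral ℤ x) (V : ValuationSubring ℂ) : x ∈ V := by
  obtain ⟨P, hP, h⟩ := hx
  have h1 : IsIntegral V x := ⟨P.map (algebraMap ℤ V), hP.map _, by
    rw [Polynomial.eval₂_map,
      RingHom.ext_int ((algebraMap V ℂ).comp (algebraMap ℤ V)) (algebraMap ℤ ℂ)]
    exact h⟩
  obtain ⟨y, hy⟩ := IsIntegrallyClosed.isIntegral_iff.1 h1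
  exact hy ▸ y.2

variable {r : ℕ}

/-- A finite spanning set contains a basis spanning the same lattice over a valuation subring. -/
lemma exists_lattice_basis (V : ValuationSubring ℂ) (S : Finset (Fin r → ℂ))
    (hS : Submodule.span ℂ (S : Set (Fin r → ℂ)) = ⊤) :
    ∃ v : Fin r → (Fin r → ℂ), LinearIndependent ℂ v ∧
      ∀ x ∈ S, ∃ c : Fin r → ℂ, (∀ k, c k ∈ V) ∧ x = ∑ k, c k • v k ∧ ∀ k, v k ∈ S := by
  classical
  obtain ⟨T, ⟨hTS, hTspan⟩, hmin⟩ := WellFounded.has_min
    (InvImage.wf (fun T : Finset (Fin r → ℂ) => T.card) Nat.lt_wfRel.wf)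
    {T | T ⊆ S ∧ ∀ x ∈ S, ∃ c : (Fin r → ℂ) → ℂ, (∀ t ∈ T, c t ∈ V) ∧ x = ∑ t ∈ T, c t • t}
    ⟨S, subset_rfl, fun x hx => ⟨fun t => if t = x then 1 else 0,
      fun t _ => by
        dsimp only; split_ifs
        · exact V.one_mem
        · exact V.zero_mem, by simp [hx]⟩⟩
  have hli : LinearIndependent ℂ (fun t : T => (t : Fin r → ℂ)) := by
    rw [Fintype.linearIndependent_iff]
    intro g hg
    by_contra h
    push Not at h
    obtain ⟨t1, ht1⟩ := h
    obtain ⟨t0, -, ht0⟩ := Finset.exists_max_image Finset.univ (fun t : T => V.valuation (g t))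
      ⟨t1, Finset.mem_univ _⟩
    have hg0 : g t0 ≠ 0 := fun h0 => ht1 (by
      have := ht0 t1 (Finset.mem_univ _)
      rwa [h0, map_zero, le_zero_iff, map_eq_zero] at this)
    let d : (Fin r → ℂ) → ℂ := fun t => if ht : t ∈ T then g ⟨t, ht⟩ / g t0 else 0
    have hd : ∀ t ∈ T, d t ∈ V := fun t ht => by
      rw [← V.valuation_le_one_iff]
      simp only [d, ht, dif_pos, map_div₀]
      exact div_le_one_of_le₀ (ht0 ⟨t, ht⟩ (Finset.mem_univ _)) zero_le
    have hd0 : ∑ t ∈ T, d t • t = 0 := by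
      rw [← Finset.sum_coe_sort]
      simp only [d, Finset.coe_mem, dif_pos, Subtype.coe_eta, div_eq_inv_mul, ← smul_smul,
        ← Finset.smul_sum, hg, smul_zero]
    have ht0e : (t0 : Fin r → ℂ) = ∑ t ∈ T.erase t0, (-d t) • t := by
      rw [← Finset.add_sum_erase _ _ t0.2] at hd0
      have : d t0 = 1 := by simp [d, hg0]
      rw [this, one_smul] at hd0
      simpa [neg_smul, Finset.sum_neg_distrib] using eq_neg_of_add_eq_zero_left hd0
    refine hmin (T.erase t0) ⟨(Finset.erase_subset _ _).trans hTS, fun x hx => ?_⟩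
      (Finset.card_erase_lt_of_mem t0.2)
    obtain ⟨c, hc, he⟩ := hTspan x hx
    refine ⟨fun t => c t + c t0 * -d t, fun t ht => ?_, ?_⟩
    · exact V.add_mem _ _ (hc t (Finset.mem_of_mem_erase ht))
        (V.mul_mem _ _ (hc t0 t0.2) (V.neg_mem _ (hd t (Finset.mem_of_mem_erase ht))))
    · rw [he, ← Finset.add_sum_erase _ _ t0.2]
      have he0 : c (t0 : Fin r → ℂ) • (t0 : Fin r → ℂ) =
          ∑ t ∈ T.erase (t0 : Fin r → ℂ), (c (t0 : Fin r → ℂ) * -d t) • t := by
        generalize c (t0 : Fin r → ℂ) = q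
        conv_lhs => rw [ht0e]
        rw [Finset.smul_sum]
        exact Finset.sum_congr rfl fun t _ => smul_smul _ _ _
      rw [he0, ← Finset.sum_add_distrib]
      refine Finset.sum_congr rfl fun t _ => ?_
      rw [add_smul, add_comm]
  have hspan : ⊤ ≤ Submodule.span ℂ (Set.range fun t : T => (t : Fin r → ℂ)) := by
    rw [← hS]
    refine Submodule.span_le.2 fun x hx => ?_
    obtain ⟨c, -, rfl⟩ := hTspan x hx
    exact Submodule.sum_mem _ fun t ht => Submodule.smul_mem _ _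
      (Submodule.subset_span ⟨⟨t, ht⟩, rfl⟩)
  let B := Module.Basis.mk hli hspan
  let e : T ≃ Fin r := Fintype.equivFinOfCardEq
    ((Module.finrank_eq_card_basis B).symm.trans (Module.finrank_fin_fun ℂ))
  refine ⟨fun k => (e.symm k : Fin r → ℂ), hli.comp _ e.symm.injective, fun x hx => ?_⟩
  obtain ⟨c, hc, he⟩ := hTspan x hx
  refine ⟨fun k => c (e.symm k : Fin r → ℂ), fun k => hc _ (e.symm k).2, ?_,
    fun k => hTS (e.symm k).2⟩
  rw [he, ← Finset.sum_coe_sort]
  exact (Equiv.sum_comp e.symm fun t : T => c t.1 • t.1).symm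

variable {Γ : Type} [Group Γ]

/-- Integer polynomials take values in any subring containing the arguments. -/
lemma aeval_mem {σ : Type} (R : Subring ℂ) {x : σ → ℂ} (hx : ∀ s, x s ∈ R)
    (F : MvPolynomial σ ℤ) : MvPolynomial.aeval x F ∈ R := by
  induction F using MvPolynomial.induction_on with
  | C c => simp
  | add p q hp hq => rw [map_add]; exact R.add_mem hp hq
  | mul_X p s hp => rw [map_mul, MvPolynomial.aeval_X]; exact R.mul_mem hp (hx s)

/-- Values of invariant integer polynomials on a twisted model are algebraic integers of `L`. -/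
theorem integralPoint {K : Subgroup Γ} [K.Normal] [K.FiniteIndex] {n : ℕ} (hn : n ≠ 0)
    (D : Datum (Γ ⧸ K) r n) (w : Γ ⧸ K → Matrix (Fin r) (Fin r) ℂ) (hw : IsW D w)
    (L : IntermediateField ℚ ℂ) (hwL : ∀ a i j, w a i j ∈ L)
    (t : Γ → Set.range D.1 → ℂˣ) (htL : ∀ g l, ((t g l : ℂˣ) : ℂ) ∈ L)
    (htI : ∀ g l, IsIntegral ℤ ((t g l : ℂˣ) : ℂ))
    (ρ : Γ →* SpecialLinearGroup (Fin r) ℂ)
    (hρ : ∀ g, (ρ g).1 = blockDiag D (fun l => ((t g l : ℂˣ) : ℂ)) * w (QuotientGroup.mk g)) :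
    IntegralPoint L ρ := by
  classical
  intro F hF
  have hcL : ∀ x, coord ρ x ∈ L := fun x => by
    simp only [coord, hρ, blockDiag, Matrix.diagonal_mul]
    exact L.mul_mem (htL _ _) (hwL _ _ _)
  refine ⟨?_, isIntegral_of_forall_mem fun V => ?_⟩
  · exact aeval_mem L.toSubring hcL F
  have := Fintype.ofFinite (Γ ⧸ K)
  let S : Finset (Fin r → ℂ) :=
    Finset.univ.image (fun x : (Γ ⧸ K) × Fin r => (fun i => w x.1 i x.2)) ∪
      Finset.univ.image (fun j : Fin r => Pi.single j (1 : ℂ))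
  have hspan : Submodule.span ℂ (S : Set (Fin r → ℂ)) = ⊤ := by
    rw [← top_le_iff]
    intro v _
    rw [pi_eq_sum_univ' v]
    exact Submodule.sum_mem _ fun j _ => Submodule.smul_mem _ _
      (Submodule.subset_span (by simp [S]))
  obtain ⟨v, hli, hv⟩ := exists_lattice_basis V S hspan
  -- images of lattice generators stay in the lattice
  have hstep : ∀ g, ∀ x ∈ S, ∃ (u : ℂ) (y : Fin r → ℂ), y ∈ S ∧ u ∈ V ∧ (ρ g).1 *ᵥ x = u • y := by
    intro g x hx
    have hcol : ∀ a j, ∀ u : Set.range D.1 → ℂ, blockDiag D u *ᵥ (fun i => w a i j) =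
        u ((D.2.1 a).symm (lab D j)) • (fun i => w a i j) := by
      intro a j u
      ext i
      rw [blockDiag, Matrix.mulVec_diagonal, Pi.smul_apply, smul_eq_mul]
      by_cases h : w a i j = 0
      · simp [h]
      · rw [hw.2.1 a i j h, Equiv.symm_apply_apply]
    rw [hρ g, ← Matrix.mulVec_mulVec]
    simp only [S, Finset.mem_union, Finset.mem_image, Finset.mem_univ, true_and] at hx
    set a : Γ ⧸ K := QuotientGroup.mk g
    rcases hx with ⟨⟨a', j⟩, rfl⟩ | ⟨j, rfl⟩
    · have h1 : w a *ᵥ (fun i => w a' i j) =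
          blockDiag D (fun l => (D.2.2 a a' l).1) *ᵥ (fun i => w (a * a') i j) := by
        ext i
        have := congrFun (congrFun (hw.2.2 a a') i) j
        simpa [Matrix.mul_apply, Matrix.mulVec, dotProduct] using this
      refine ⟨(D.2.2 a a' ((D.2.1 (a * a')).symm (lab D j))).1 *
        (t g ((D.2.1 (a * a')).symm (lab D j)) : ℂ), fun i => w (a * a') i j, ?_, ?_, ?_⟩
      · exact Finset.mem_union_left _ (Finset.mem_image.2 ⟨(a * a', j), Finset.mem_univ _, rfl⟩)
      · refine V.mul_mem _ _ ?_ (mem_of_isIntegral (htI _ _) V)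
        refine mem_of_isIntegral (IsIntegral.of_pow (Nat.pos_of_ne_zero hn) ?_) V
        rw [(D.2.2 a a' _).2]
        exact isIntegral_one
      · rw [h1, hcol, Matrix.mulVec_smul, hcol, smul_smul]
    · have h1 : w a *ᵥ Pi.single j (1 : ℂ) = fun i => w a i j := by
        rw [Matrix.mulVec_single_one]; rfl
      exact ⟨(t g ((D.2.1 a).symm (lab D j)) : ℂ), fun i => w a i j,
        Finset.mem_union_left _ (Finset.mem_image.2 ⟨(a, j), Finset.mem_univ _, rfl⟩),
        mem_of_isIntegral (htI _ _) V, by rw [h1, hcol]⟩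
  let P : Matrix (Fin r) (Fin r) ℂ := Matrix.of fun i k => v k i
  have hP : IsUnit P.det := (Matrix.isUnit_iff_isUnit_det P).1
    (Matrix.linearIndependent_cols_iff_isUnit.1 hli)
  have hvS : ∀ k, v k ∈ S := by
    intro k
    obtain ⟨c, -, -, h⟩ := hv (Pi.single k 1) (by simp [S])
    exact h k
  have hentry : ∀ g i k, (P⁻¹ * (ρ g).1 * P) i k ∈ V := by
    intro g i k
    obtain ⟨u, y, hy, hu, he⟩ := hstep g (v k) (hvS k)
    obtain ⟨c, hc, hce, -⟩ := hv y hy
    have hy' : y = P *ᵥ c := by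
      rw [hce]; ext m
      simp [P, Matrix.mulVec, dotProduct, mul_comm]
    have h2 : ∀ m, (P⁻¹ * (ρ g).1 * P) m k = u * c m := by
      intro m
      have h3 : (P⁻¹ * (ρ g).1 * P) m k = (P⁻¹ *ᵥ ((ρ g).1 *ᵥ v k)) m := by
        rw [Matrix.mulVec_mulVec]
        simp [P, Matrix.mul_apply, Matrix.mulVec, dotProduct]
      rw [h3, he, Matrix.mulVec_smul, hy', Matrix.mulVec_mulVec, Matrix.nonsing_inv_mul _ hP,
        Matrix.one_mulVec]
      rfl
    rw [h2]
    exact V.mul_mem _ _ hu (hc i)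
  -- rescale to determinant one
  have hr0 : ∃ μ : ℂ, μ ≠ 0 ∧ μ ^ r * P⁻¹.det = 1 := by
    rcases Nat.eq_zero_or_pos r with h0 | hpos
    · subst h0
      exact ⟨1, one_ne_zero, by simp⟩
    · obtain ⟨μ, hμ⟩ := IsAlgClosed.exists_pow_nat_eq P.det hpos
      refine ⟨μ, fun h => hP.ne_zero ?_, ?_⟩
      · rw [← hμ, h, zero_pow hpos.ne']
      · rw [hμ, Matrix.det_nonsing_inv, Ring.mul_inverse_cancel _ hP]
  obtain ⟨μ, hμ0, hμ⟩ := hr0
  let Q : SpecialLinearGroup (Fin r) ℂ := ⟨μ • P⁻¹, by rw [Matrix.det_smul, Fintype.card_fin, hμ]⟩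
  rw [← hF ρ Q]
  have hco : ∀ x, coord ((MulAut.conj Q).toMonoidHom.comp ρ) x ∈ V := by
    rintro ⟨g, i, k⟩
    have hQ : (Q⁻¹ : SpecialLinearGroup (Fin r) ℂ).1 = μ⁻¹ • P := by
      apply left_inv_eq_right_inv (a := (Q : Matrix (Fin r) (Fin r) ℂ))
      · exact congrArg Subtype.val (inv_mul_cancel Q)
      · show (μ • P⁻¹) * (μ⁻¹ • P) = 1
        rw [Matrix.smul_mul, Matrix.mul_smul, smul_smul, mul_inv_cancel₀ hμ0, one_smul,
          Matrix.nonsing_inv_mul _ hP]
    show (Q.1 * (ρ g).1 * (Q⁻¹ : SpecialLinearGroup (Fin r) ℂ).1) i k ∈ V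
    rw [hQ]
    show ((μ • P⁻¹) * (ρ g).1 * (μ⁻¹ • P)) i k ∈ V
    rw [Matrix.smul_mul, Matrix.smul_mul, Matrix.mul_smul, smul_smul, mul_inv_cancel₀ hμ0, one_smul]
    exact hentry g i k
  exact aeval_mem V.toSubring hco F

end Vale.Agent.P002
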