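import Vale.Agent.P002.Basic

/-!
Solvable completely reducible groups of `r × r` complex matrices have commutative subgroups of
index bounded in terms of `r`.
-/

open Matrix
open scoped commutatorElement

namespace Vale.Agent.P002

variable {r : ℕ} {G : Type*} [Group G]

/-- The index bound. -/
def malcevBound (r : ℕ) : ℕ :=
  ((r * r) ^ r) * (((r * r) ^ r) ^ ((r * r) ^ r)) * r ^ r

lemma isUnit_det_hom (φ : G →* Matrix (Fin r) (Fin r) ℂ) (g : G) : IsUnit (φ g).det :=
  (Matrix.isUnit_iff_isUnit_det _).1 ((Group.isUnit g).map φ)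

lemma comm_of_commutator (φ : G →* Matrix (Fin r) (Fin r) ℂ) {x y : G}
    (h : φ ⁅x, y⁆ = 1) : φ x * φ y = φ y * φ x := by
  have he : x * y = ⁅x, y⁆ * (y * x) := by rw [commutatorElement_def]; group
  rw [← map_mul, ← map_mul, he, map_mul, h, one_mul]

lemma commutator_eq_one (φ : G →* Matrix (Fin r) (Fin r) ℂ) {x y : G}
    (h : φ x * φ y = φ y * φ x) : φ ⁅x, y⁆ = 1 := by
  rw [commutatorElement_def, map_mul, map_mul, map_mul, h, mul_assoc (φ y), ← map_mul φ x x⁻¹,
    mul_inv_cancel, map_one, mul_one, ← map_mul, mul_inv_cancel, map_one]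

/-- A normal subgroup inside `G1` containing `S0`, maximal with commutators in `A`. -/
lemma exists_maximal (A G1 S0 : Subgroup G) (h0 : S0.Normal) (h1 : S0 ≤ G1)
    (h2 : ∀ x ∈ S0, ∀ y ∈ S0, ⁅x, y⁆ ∈ A) :
    ∃ S : Subgroup G, S.Normal ∧ S0 ≤ S ∧ S ≤ G1 ∧ (∀ x ∈ S, ∀ y ∈ S, ⁅x, y⁆ ∈ A) ∧
      ∀ T : Subgroup G, T.Normal → S ≤ T → T ≤ G1 → (∀ x ∈ T, ∀ y ∈ T, ⁅x, y⁆ ∈ A) → T ≤ S := by
  obtain ⟨S, hle, ⟨hn, hG, hc⟩, hmax⟩ := zorn_le_nonempty₀
    {S : Subgroup G | S.Normal ∧ S ≤ G1 ∧ ∀ x ∈ S, ∀ y ∈ S, ⁅x, y⁆ ∈ A}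
    (fun c hcs hch z hz => by
      have hne : c.Nonempty := ⟨z, hz⟩
      have hd : DirectedOn (· ≤ ·) c := hch.directedOn
      refine ⟨sSup c, ⟨⟨fun n hn g => ?_⟩, sSup_le fun T hT => (hcs hT).2.1, ?_⟩,
        fun T hT => le_sSup hT⟩
      · obtain ⟨T, hT, hnT⟩ := (Subgroup.mem_sSup_of_directedOn hne hd).1 hn
        exact (Subgroup.mem_sSup_of_directedOn hne hd).2
          ⟨T, hT, (hcs hT).1.conj_mem n hnT g⟩
      · intro x hx y hy
        obtain ⟨T, hT, hxT⟩ := (Subgroup.mem_sSup_of_directedOn hne hd).1 hx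
        obtain ⟨T', hT', hyT⟩ := (Subgroup.mem_sSup_of_directedOn hne hd).1 hy
        obtain ⟨U, hU, hTU, hT'U⟩ := hd T hT T' hT'
        exact (hcs hU).2.2 x (hTU hxT) y (hT'U hyT))
    S0 ⟨h0, h1, h2⟩
  exact ⟨S, hn, hle, hG, hc, fun T h1 h2 h3 h4 => hmax ⟨h1, h3, h4⟩ h2⟩

/-- Bounding an index by an injective map on chosen representatives. -/
lemma relIndex_le {A K : Subgroup G} {B : Type*} [Finite B] (f : G → B)
    (h : ∀ g ∈ K, ∀ g' ∈ K, f g = f g' → g⁻¹ * g' ∈ A) :
    A.relIndex K ≠ 0 ∧ A.relIndex K ≤ Nat.card B := by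
  have hinj : Function.Injective (fun q : K ⧸ A.subgroupOf K => f (q.out : G)) := by
    intro q q' he
    have hm := h _ q.out.2 _ q'.out.2 he
    have h2 : (QuotientGroup.mk q.out : K ⧸ A.subgroupOf K) = QuotientGroup.mk q'.out := by
      rw [QuotientGroup.eq, Subgroup.mem_subgroupOf]
      simpa using hm
    simpa using h2
  have hf : Finite (K ⧸ A.subgroupOf K) := Finite.of_injective _ hinj
  refine ⟨?_, Nat.card_le_card_of_injective _ hinj⟩
  rw [Subgroup.relIndex, Subgroup.index]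
  exact Nat.card_ne_zero.2 ⟨inferInstance, hf⟩

/-- A solvable completely reducible matrix group has a commutative subgroup of bounded index. -/
theorem malcev [Group.IsSolvable G] (φ : G →* Matrix (Fin r) (Fin r) ℂ) (hCR : CR (Set.range φ)) :
    ∃ A : Subgroup G, A.index ≠ 0 ∧ A.index ≤ malcevBound r ∧
      ∀ a ∈ A, ∀ b ∈ A, φ a * φ b = φ b * φ a := by
  classical
  -- a maximal normal subgroup with commutative image
  obtain ⟨A, hAn, hker, -, hAc, hAmax⟩ := exists_maximal φ.ker ⊤ φ.ker inferInstance le_top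
    (fun x hx y hy => by
      have hx' : φ x = 1 := hx
      have hy' : φ y = 1 := hy
      exact commutator_eq_one φ (by rw [hx', hy']))
  have hAcomm : ∀ a ∈ A, ∀ b ∈ A, φ a * φ b = φ b * φ a := fun a ha b hb =>
    comm_of_commutator φ (hAc a ha b hb)
  have hAcr : CR (φ '' (A : Set G)) := by
    refine cr_normal hCR (Set.image_subset_range _ _) ?_ ?_
    · rintro _ ⟨g, rfl⟩; exact isUnit_det_hom φ g
    · rintro _ ⟨g, rfl⟩ _ ⟨a, ha, rfl⟩
      refine ⟨⟨_, ⟨g⁻¹ * a * g, ?_, rfl⟩, ?_⟩, ⟨_, ⟨g * a * g⁻¹, hAn.conj_mem a ha g, rfl⟩, ?_⟩⟩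
      · simpa using hAn.conj_mem a ha g⁻¹
      · rw [← map_mul, ← map_mul]; congr 1; group
      · rw [← map_mul, ← map_mul]; congr 1; group
  obtain ⟨P, hP, hPd⟩ := exists_diag hAcr (by
    rintro _ ⟨a, ha, rfl⟩ _ ⟨b, hb, rfl⟩; exact hAcomm a ha b hb)
  -- the conjugated homomorphism
  let ψ : G →* Matrix (Fin r) (Fin r) ℂ :=
    { toFun := fun g => P⁻¹ * φ g * P
      map_one' := by simp [Matrix.nonsing_inv_mul _ hP]
      map_mul' := fun g h => by
        rw [map_mul]
        simp only [Matrix.mul_assoc]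
        rw [Matrix.mul_nonsing_inv_cancel_left _ _ hP] }
  have hψφ : ∀ g, φ g = P * ψ g * P⁻¹ := fun g => by
    show φ g = P * (P⁻¹ * φ g * P) * P⁻¹
    simp [← Matrix.mul_assoc, Matrix.mul_nonsing_inv _ hP]
    rw [Matrix.mul_assoc, Matrix.mul_nonsing_inv _ hP, mul_one]
  have hcommψ : ∀ x y, ψ x * ψ y = ψ y * ψ x → φ x * φ y = φ y * φ x := fun x y h => by
    apply comm_of_commutator
    rw [hψφ, commutator_eq_one ψ h, mul_one, Matrix.mul_nonsing_inv _ hP]
  have hψcomm : ∀ x y, φ x * φ y = φ y * φ x → ψ x * ψ y = ψ y * ψ x := fun x y h => by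
    rw [← map_mul, ← map_mul]
    show P⁻¹ * φ (x * y) * P = P⁻¹ * φ (y * x) * P
    rw [map_mul, map_mul, h]
  have hdiag : ∀ a ∈ A, ∃ d : Fin r → ℂ, ψ a = Matrix.diagonal d := fun a ha => by
    obtain ⟨d, hd⟩ := hPd _ ⟨a, ha, rfl⟩
    refine ⟨d, ?_⟩
    show P⁻¹ * φ a * P = _
    rw [Matrix.mul_assoc, hd, ← Matrix.mul_assoc, Matrix.nonsing_inv_mul _ hP, one_mul]
  choose χ hχ using hdiag
  let cls : Fin r → (A → ℂ) := fun i a => χ a.1 a.2 i
  let e : Fin r → Matrix (Fin r) (Fin r) ℂ := fun l =>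
    Matrix.diagonal fun i => if cls i = cls l then 1 else 0
  -- the centraliser of `A`
  let G1 : Subgroup G :=
    { carrier := {g | ∀ a ∈ A, φ g * φ a = φ a * φ g}
      one_mem' := fun a _ => by simp
      mul_mem' := fun {x y} hx hy a ha => by
        rw [map_mul, mul_assoc, hy a ha, ← mul_assoc, hx a ha, mul_assoc]
      inv_mem' := fun {x} hx a ha => by
        have h1 : φ x⁻¹ * φ x = 1 := by rw [← map_mul, inv_mul_cancel, map_one]
        have h2 : φ x * φ x⁻¹ = 1 := by rw [← map_mul, mul_inv_cancel, map_one]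
        calc φ x⁻¹ * φ a = φ x⁻¹ * (φ a * φ x) * φ x⁻¹ := by
              rw [mul_assoc, mul_assoc, h2, mul_one]
          _ = φ x⁻¹ * (φ x * φ a) * φ x⁻¹ := by rw [hx a ha]
          _ = φ a * φ x⁻¹ := by rw [← mul_assoc, h1, one_mul] }
  have hAG1 : A ≤ G1 := fun a ha b hb => hAcomm a ha b hb
  have hG1n : G1.Normal := by
    constructor
    intro x hx g a ha
    have hb : g⁻¹ * a * g ∈ A := by simpa using hAn.conj_mem a ha g⁻¹
    have h1 := hx _ hb
    have h2 : φ g * (φ x * φ (g⁻¹ * a * g)) * φ g⁻¹ =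
        φ g * (φ (g⁻¹ * a * g) * φ x) * φ g⁻¹ := by rw [h1]
    simp only [← map_mul] at h2 ⊢
    convert h2 using 2 <;> group
  have he : ∀ g ∈ G1, ∀ l, ψ g * e l = e l * ψ g := by
    intro g hg l
    ext i j
    simp only [e, Matrix.mul_diagonal, Matrix.diagonal_mul]
    by_cases hij : ψ g i j = 0
    · simp [hij]
    have : cls i = cls j := funext fun a => by
      have h1 := congrFun (congrFun (hψcomm g a.1 (hg a.1 a.2)) i) j
      rw [hχ a.1 a.2, Matrix.mul_diagonal, Matrix.diagonal_mul] at h1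
      exact mul_right_cancel₀ hij (h1.symm.trans (mul_comm _ _))
    rw [this, mul_comm]
  -- index of the centraliser
  have hG1 : G1.relIndex ⊤ ≠ 0 ∧ G1.relIndex ⊤ ≤ r ^ r := by
    have hex : ∀ g i, ∃ j, ψ g i j ≠ 0 := fun g i => by
      by_contra h
      push Not at h
      exact (isUnit_det_hom ψ g).ne_zero (Matrix.det_eq_zero_of_row_eq_zero i h)
    choose σ hσ using hex
    have h := relIndex_le (A := G1) (K := ⊤) σ fun g _ g' _ heq => by
      intro a ha
      apply hcommψ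
      set a' := g' * a * g'⁻¹ with ha'
      have hm : g' * a * g'⁻¹ ∈ A := hAn.conj_mem a ha g'
      have hm2 : g * a * g⁻¹ ∈ A := hAn.conj_mem a ha g
      have key : ∀ (g : G) (hm : g * a * g⁻¹ ∈ A) (i : Fin r),
          χ _ hm i = χ a ha (σ g i) := by
        intro g hm i
        have h1 : ψ (g * a * g⁻¹) * ψ g = ψ g * ψ a := by
          rw [← map_mul, ← map_mul]; congr 1; group
        rw [hχ _ hm, hχ a ha] at h1
        have h2 := congrFun (congrFun h1 i) (σ g i)
        rw [Matrix.diagonal_mul, Matrix.mul_diagonal, mul_comm (χ _ hm i)] at h2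
        exact mul_left_cancel₀ (hσ g i) h2
      have hsame : ψ (g * a * g⁻¹) = ψ (g' * a * g'⁻¹) := by
        rw [hχ _ hm, hχ _ hm2]
        congr 1
        funext i
        rw [key g hm2 i, key g' hm i, congrFun heq i]
      calc ψ (g⁻¹ * g') * ψ a = ψ g⁻¹ * ψ (g' * a * g'⁻¹) * ψ g' := by
            rw [← map_mul, ← map_mul, ← map_mul]; congr 1; group
        _ = ψ g⁻¹ * ψ (g * a * g⁻¹) * ψ g' := by rw [hsame]
        _ = ψ a * ψ (g⁻¹ * g') := by
            rw [← map_mul, ← map_mul, ← map_mul]; congr 1; group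
    simpa using h
  -- a maximal normal subgroup of the centraliser, commutative modulo `A`
  obtain ⟨B, hBn, hAB, hBG1, hBc, hBmax⟩ := exists_maximal A G1 A hAn hAG1
    (fun x hx y hy => by
      rw [commutatorElement_def]
      exact A.mul_mem (A.mul_mem (A.mul_mem hx hy) (A.inv_mem hx)) (A.inv_mem hy))
  have hkerA : ∀ z, φ z = 1 → z ∈ A := fun z hz => hker hz
  let C : Subgroup G :=
    { carrier := {g | g ∈ G1 ∧ ∀ x ∈ B, φ g * φ x = φ x * φ g}
      one_mem' := ⟨G1.one_mem, fun a _ => by simp⟩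
      mul_mem' := fun {x y} hx hy => ⟨G1.mul_mem hx.1 hy.1, fun a ha => by
        rw [map_mul, mul_assoc, hy.2 a ha, ← mul_assoc, hx.2 a ha, mul_assoc]⟩
      inv_mem' := fun {x} hx => ⟨G1.inv_mem hx.1, fun a ha => by
        have h1 : φ x⁻¹ * φ x = 1 := by rw [← map_mul, inv_mul_cancel, map_one]
        have h2 : φ x * φ x⁻¹ = 1 := by rw [← map_mul, mul_inv_cancel, map_one]
        calc φ x⁻¹ * φ a = φ x⁻¹ * (φ a * φ x) * φ x⁻¹ := by
              rw [mul_assoc, mul_assoc, h2, mul_one]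
          _ = φ x⁻¹ * (φ x * φ a) * φ x⁻¹ := by rw [hx.2 a ha]
          _ = φ a * φ x⁻¹ := by rw [← mul_assoc, h1, one_mul]⟩ }
  have hCn : C.Normal := by
    constructor
    intro x hx g
    refine ⟨hG1n.conj_mem x hx.1 g, fun a ha => ?_⟩
    have hb : g⁻¹ * a * g ∈ B := by simpa using hBn.conj_mem a ha g⁻¹
    have h1 := hx.2 _ hb
    have h2 : φ g * (φ x * φ (g⁻¹ * a * g)) * φ g⁻¹ =
        φ g * (φ (g⁻¹ * a * g) * φ x) * φ g⁻¹ := by rw [h1]
    simp only [← map_mul] at h2 ⊢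
    convert h2 using 2 <;> group
  have hZA : ∀ z ∈ B, z ∈ C → z ∈ A := by
    intro z hzB hzC
    refine hAmax (B ⊓ C) inferInstance (fun a ha => ⟨hAB ha, hAG1 ha, fun x hx => ?_⟩) le_top
      (fun x hx y hy => commutator_eq_one φ (hx.2.2 y hy.1)) ⟨hzB, hzC⟩
    exact ((hBG1 hx) a ha).symm
  have hCA : C ≤ A := by
    by_contra hCA
    obtain ⟨m, hm⟩ := Group.IsSolvable.solvable (G := G)
    have hex : ∃ n, derivedSeries G n ⊓ C ≤ A := ⟨m, by rw [hm]; simp⟩
    obtain ⟨k, hk⟩ : ∃ k, Nat.find hex = k + 1 := by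
      rcases Nat.eq_zero_or_eq_succ_pred (Nat.find hex) with h | h
      · exfalso
        have := Nat.find_spec hex
        rw [h, derivedSeries_zero, top_inf_eq] at this
        exact hCA this
      · exact ⟨_, h⟩
    have hnot : ¬ derivedSeries G k ⊓ C ≤ A := Nat.find_min hex (by omega)
    have hsucc : derivedSeries G (k + 1) ⊓ C ≤ A := hk ▸ Nat.find_spec hex
    set D := derivedSeries G k ⊓ C with hD
    have hDn : D.Normal := by
      have := derivedSeries_normal G k
      infer_instance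
    have hDc : ∀ x ∈ D, ∀ y ∈ D, ⁅x, y⁆ ∈ A := fun x hx y hy => hsucc
      ⟨by rw [derivedSeries_succ]; exact Subgroup.commutator_mem_commutator hx.1 hy.1, by
        rw [commutatorElement_def]
        exact C.mul_mem (C.mul_mem (C.mul_mem hx.2 hy.2) (C.inv_mem hx.2)) (C.inv_mem hy.2)⟩
    have hsup : ∀ x ∈ B ⊔ D, ∀ y ∈ B ⊔ D, ⁅x, y⁆ ∈ A := by
      intro x hx y hy
      rw [← SetLike.mem_coe, Subgroup.mul_normal, Set.mem_mul] at hx hy
      obtain ⟨b, hb, d, hd, rfl⟩ := hx
      obtain ⟨b', hb', d', hd', rfl⟩ := hy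
      have hq : ∀ {u v : G}, ⁅u, v⁆ ∈ A →
          Commute (QuotientGroup.mk' A u) (QuotientGroup.mk' A v) := fun {u v} h => by
        rw [← commutatorElement_eq_one_iff_commute, ← map_commutatorElement]
        exact (QuotientGroup.eq_one_iff _).2 h
      have h1 := hq (hBc b hb b' hb')
      have h2 := hq (hkerA _ (commutator_eq_one φ ((hd'.2.2 b hb).symm)))
      have h3 := hq (hkerA _ (commutator_eq_one φ (hd.2.2 b' hb')))
      have h4 := hq (hDc d hd d' hd')
      have : QuotientGroup.mk' A ⁅b * d, b' * d'⁆ = 1 := by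
        rw [map_commutatorElement, map_mul, map_mul, commutatorElement_eq_one_iff_commute]
        exact ((h1.mul_right h2).mul_left (h3.mul_right h4))
      exact (QuotientGroup.eq_one_iff _).1 this
    have hle : B ⊔ D ≤ B := hBmax _ inferInstance le_sup_left
      (sup_le hBG1 fun x hx => hx.2.1) hsup
    exact hnot fun x hx => hZA x (hle (Subgroup.mem_sup_right hx)) hx.2
  -- the elements of the centraliser acting trivially on `B` modulo `A`
  let K : Subgroup G :=
    { carrier := {g | g ∈ G1 ∧ ∀ x ∈ B, ⁅g, x⁆ ∈ A}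
      one_mem' := ⟨G1.one_mem, fun x _ => by simp⟩
      mul_mem' := fun {g h} hg hh => ⟨G1.mul_mem hg.1 hh.1, fun x hx => by
        have he : ⁅g * h, x⁆ = g * ⁅h, x⁆ * g⁻¹ * ⁅g, x⁆ := by
          simp only [commutatorElement_def]; group
        rw [he]
        exact A.mul_mem (hAn.conj_mem _ (hh.2 x hx) g) (hg.2 x hx)⟩
      inv_mem' := fun {g} hg => ⟨G1.inv_mem hg.1, fun x hx => by
        have he : ⁅g⁻¹, x⁆ = g⁻¹ * ⁅g, x⁆⁻¹ * g⁻¹⁻¹ := by
          simp only [commutatorElement_def]; group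
        rw [he]
        exact hAn.conj_mem _ (A.inv_mem (hg.2 x hx)) _⟩ }
  have hBK : B ≤ K := fun g hg => ⟨hBG1 hg, fun x hx => hBc g hg x hx⟩
  have hKG1 : K ≤ G1 := fun g hg => hg.1
  -- pairing values
  let c : (g : K) → Fin r → B → ℂ := fun g i x => χ _ (g.2.2 x.1 x.2) i
  let Λ : Fin r → Set (B → ℂ) := fun i => Set.range fun g => c g i
  have hcc : ∀ (g : K) (x : B) (i l : Fin r), cls i = cls l → c g i x = c g l x :=
    fun g x i l h => congrFun h ⟨_, g.2.2 x.1 x.2⟩
  have hΛ : ∀ i, (Λ i).Finite ∧ (Λ i).ncard ≤ r * r := by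
    intro l
    choose rep hrep using fun t : Λ l => t.2
    have hli : LinearIndependent ℂ fun t : Λ l => e l * ψ (rep t).1 := by
      rw [linearIndependent_iff']
      intro s a hsum t ht
      have h1 := congrArg (fun M => (ψ (rep t).1⁻¹ * M).trace) hsum
      simp only [Matrix.mul_sum, Matrix.trace_sum, Matrix.mul_zero, Matrix.trace_zero,
        Matrix.mul_smul, Matrix.trace_smul, smul_eq_mul] at h1
      rw [Finset.sum_eq_single t] at h1
      · have hne : (ψ (rep t).1⁻¹ * (e l * ψ (rep t).1)).trace ≠ 0 := by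
          rw [← Matrix.mul_assoc, Matrix.mul_assoc (ψ _), ← he _ (rep t).2.1 l,
            ← Matrix.mul_assoc, ← map_mul, inv_mul_cancel, map_one, one_mul, Matrix.trace_diagonal]
          rw [Finset.sum_boole]
          exact_mod_cast (Finset.card_pos.2 ⟨l, by simp⟩).ne'
        exact (mul_eq_zero.1 h1).resolve_right hne
      · intro u _ hu
        have hne : (u : B → ℂ) ≠ t := fun h => hu (Subtype.ext h)
        obtain ⟨x, hx⟩ := Function.ne_iff.1 hne
        rw [← hrep u, ← hrep t] at hx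
        set g := (rep t).1
        set g' := (rep u).1
        set T := ψ g⁻¹ * (e l * ψ g') with hT
        have hconj : ψ x.1 * T * ψ x.1⁻¹ =
            (c (rep t) l x / c (rep u) l x) • T := by
          have hd : ∀ h : K, ψ ⁅h.1, x.1⁆ = Matrix.diagonal fun i => c h i x :=
            fun h => hχ _ (h.2.2 x.1 x.2)
          have hd' : ∀ h : K, c h l x ≠ 0 := fun h h0 => by
            have := (isUnit_det_hom ψ ⁅h.1, x.1⁆).ne_zero
            rw [hd, Matrix.det_diagonal] at this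
            exact this (Finset.prod_eq_zero (Finset.mem_univ l) h0)
          have k1 : ψ x.1 * ψ g⁻¹ = ψ g⁻¹ * ψ ⁅g, x.1⁆ * ψ x.1 := by
            rw [← map_mul, ← map_mul, ← map_mul]; congr 1
            simp only [commutatorElement_def]; group
          have k2 : ψ x.1 * ψ g' * ψ x.1⁻¹ = ψ ⁅g', x.1⁆⁻¹ * ψ g' := by
            rw [← map_mul, ← map_mul, ← map_mul]; congr 1
            simp only [commutatorElement_def]; group
          have k3 : ψ ⁅g, x.1⁆ * e l * ψ ⁅g', x.1⁆⁻¹ =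
              (c (rep t) l x / c (rep u) l x) • e l := by
            have h5 : ψ ⁅g', x.1⁆⁻¹ = Matrix.diagonal fun i => (c (rep u) i x)⁻¹ := by
              have hd2 : ∀ i, c (rep u) i x ≠ 0 := fun i h0 => by
                have := (isUnit_det_hom ψ ⁅(rep u).1, x.1⁆).ne_zero
                rw [hd, Matrix.det_diagonal] at this
                exact this (Finset.prod_eq_zero (Finset.mem_univ i) h0)
              apply left_inv_eq_right_inv (a := ψ ⁅g', x.1⁆)
              · rw [← map_mul, inv_mul_cancel, map_one]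
              · rw [hd, Matrix.diagonal_mul_diagonal, ← Matrix.diagonal_one]
                exact congrArg Matrix.diagonal (funext fun i => mul_inv_cancel₀ (hd2 i))
            rw [hd, h5, Matrix.diagonal_mul_diagonal, Matrix.diagonal_mul_diagonal,
              ← Matrix.diagonal_smul]
            refine congrArg Matrix.diagonal (funext fun i => ?_)
            by_cases hi : cls i = cls l
            · simp [hi, hcc _ x i l hi, div_eq_mul_inv]
            · simp [hi]
          calc ψ x.1 * T * ψ x.1⁻¹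
              = ψ x.1 * ψ g⁻¹ * e l * (ψ g' * ψ x.1⁻¹) := by
                simp only [hT, Matrix.mul_assoc]
            _ = ψ g⁻¹ * ψ ⁅g, x.1⁆ * e l * (ψ x.1 * ψ g' * ψ x.1⁻¹) := by
                rw [k1, Matrix.mul_assoc _ (ψ x.1) (e l), he _ (hBG1 x.2) l]
                simp only [Matrix.mul_assoc]
            _ = ψ g⁻¹ * (ψ ⁅g, x.1⁆ * e l * ψ ⁅g', x.1⁆⁻¹) * ψ g' := by
                rw [k2]; simp only [Matrix.mul_assoc]
            _ = _ := by
                rw [k3, hT, Matrix.mul_smul, Matrix.smul_mul, Matrix.mul_assoc]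
        have h6 : (ψ x.1 * T * ψ x.1⁻¹).trace = T.trace := by
          rw [Matrix.trace_mul_cycle, ← map_mul, inv_mul_cancel, map_one, one_mul]
        rw [hconj, Matrix.trace_smul, smul_eq_mul] at h6
        have h7 : T.trace = 0 := by
          by_contra h0
          have h8 : c (rep t) l x / c (rep u) l x = 1 := mul_right_cancel₀ h0 (by rw [h6, one_mul])
          exact hx (eq_of_div_eq_one h8).symm
        rw [h7, mul_zero]
      · exact fun h => absurd ht h
    have hfin : Finite (Λ l) := hli.finite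
    have := Fintype.ofFinite (Λ l)
    refine ⟨Set.toFinite _, ?_⟩
    rw [← Nat.card_coe_set_eq, Nat.card_eq_fintype_card]
    refine hli.fintype_card_le_finrank.trans ?_
    simp [Module.finrank_matrix]
  have := fun i => (hΛ i).1.to_subtype
  have hcardΛ : Nat.card ((i : Fin r) → Λ i) ≤ (r * r) ^ r := by
    rw [Nat.card_pi]
    refine (Finset.prod_le_prod' (g := fun _ => r * r) fun i _ => ?_).trans (by simp)
    rw [Nat.card_coe_set_eq]
    exact (hΛ i).2
  have hAK : A.relIndex K ≠ 0 ∧ A.relIndex K ≤ (r * r) ^ r := by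
    let f : G → ((i : Fin r) → Λ i) := fun g =>
      if hg : g ∈ K then fun i => ⟨c ⟨g, hg⟩ i, ⟨g, hg⟩, rfl⟩
      else fun i => ⟨c 1 i, 1, rfl⟩
    have h := relIndex_le (A := A) (K := K) f fun g hg g' hg' heq => by
      refine hCA ⟨G1.mul_mem (G1.inv_mem hg.1) hg'.1, fun x hx => hcommψ _ _ ?_⟩
      have hsame : ψ ⁅g, x⁆ = ψ ⁅g', x⁆ := by
        rw [hχ _ (hg.2 x hx), hχ _ (hg'.2 x hx)]
        refine congrArg Matrix.diagonal (funext fun i => ?_)
        have := congrArg (fun F => (F i).1 ⟨x, hx⟩) heq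
        simpa [f, hg, hg', c] using this
      calc ψ (g⁻¹ * g') * ψ x = ψ g⁻¹ * (ψ ⁅g', x⁆ * ψ (x * g')) := by
            rw [← map_mul, ← map_mul, ← map_mul]; congr 1
            simp only [commutatorElement_def]; group
        _ = ψ g⁻¹ * (ψ ⁅g, x⁆ * ψ (x * g')) := by rw [hsame]
        _ = ψ x * ψ (g⁻¹ * g') := by
            rw [← map_mul, ← map_mul, ← map_mul]; congr 1
            simp only [commutatorElement_def]; group
    exact ⟨h.1, h.2.trans hcardΛ⟩
  -- `B / A` is finite, so `K` has bounded index in the centraliser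
  have hABr : A.relIndex B ≠ 0 ∧ A.relIndex B ≤ (r * r) ^ r := by
    constructor
    · intro h0
      have := Subgroup.relIndex_mul_relIndex A B K hAB hBK
      rw [h0, zero_mul] at this
      exact hAK.1 this.symm
    · refine le_trans (Nat.le_of_dvd (Nat.pos_of_ne_zero hAK.1) ?_) hAK.2
      exact Dvd.intro _ (Subgroup.relIndex_mul_relIndex A B K hAB hBK)
  have hfB : Finite (B ⧸ A.subgroupOf B) := (Nat.card_ne_zero.1 hABr.1).2
  have hK1 : K.relIndex G1 ≠ 0 ∧
      K.relIndex G1 ≤ ((r * r) ^ r) ^ ((r * r) ^ r) := by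
    let f : G → (B ⧸ A.subgroupOf B → B ⧸ A.subgroupOf B) := fun g q =>
      QuotientGroup.mk (⟨g * (q.out : G) * g⁻¹, hBn.conj_mem _ q.out.2 g⟩ : B)
    have h := relIndex_le (A := K) (K := G1) f fun g hg g' hg' heq => by
      have hk : g⁻¹ * g' ∈ G1 := G1.mul_mem (G1.inv_mem hg) hg'
      refine ⟨hk, fun x hx => ?_⟩
      set q : B ⧸ A.subgroupOf B := QuotientGroup.mk (⟨x, hx⟩ : B)
      set x0 : G := (q.out : G) with hx0
      have ha : x0⁻¹ * x ∈ A := by
        have : (QuotientGroup.mk q.out : B ⧸ A.subgroupOf B) = QuotientGroup.mk (⟨x, hx⟩ : B) :=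
          q.out_eq
        rw [QuotientGroup.eq, Subgroup.mem_subgroupOf] at this
        exact this
      have h1 := congrFun heq q
      simp only [f] at h1
      rw [QuotientGroup.eq, Subgroup.mem_subgroupOf] at h1
      have h2 : g⁻¹ * ((g * x0 * g⁻¹)⁻¹ * (g' * x0 * g'⁻¹)) * g⁻¹⁻¹ ∈ A :=
        hAn.conj_mem _ h1 g⁻¹
      have h3 : ⁅g⁻¹ * g', x0⁆ ∈ A := by
        have := hAn.conj_mem _ h2 x0
        convert this using 1
        simp only [commutatorElement_def]; group
      have h4 : ⁅g⁻¹ * g', x0⁻¹ * x⁆ ∈ A := hkerA _ (commutator_eq_one φ (hk _ ha))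
      have h5 : ⁅g⁻¹ * g', x⁆ =
          ⁅g⁻¹ * g', x0⁆ * (x0 * ⁅g⁻¹ * g', x0⁻¹ * x⁆ * x0⁻¹) := by
        simp only [commutatorElement_def]; group
      rw [h5]
      exact A.mul_mem h3 (hAn.conj_mem _ h4 x0)
    refine ⟨h.1, h.2.trans ?_⟩
    rw [Nat.card_fun]
    have hc : Nat.card (B ⧸ A.subgroupOf B) ≤ (r * r) ^ r := hABr.2
    calc _ ≤ ((r * r) ^ r) ^ Nat.card (B ⧸ A.subgroupOf B) := Nat.pow_le_pow_left hc _
      _ ≤ _ := Nat.pow_le_pow_right
          (lt_of_lt_of_le (Nat.pos_of_ne_zero hAK.1) hAK.2) hc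
  have e1 := Subgroup.relIndex_mul_relIndex A K G1 (hAB.trans hBK) hKG1
  have e2 := Subgroup.relIndex_mul_relIndex A G1 ⊤ hAG1 le_top
  simp only [Subgroup.relIndex_top_right] at e2 hG1
  refine ⟨A, ?_, ?_, hAcomm⟩
  · rw [← e2, ← e1]
    simp [hAK.1, hK1.1, hG1.1]
  · rw [← e2, ← e1, malcevBound]
    exact Nat.mul_le_mul (Nat.mul_le_mul hAK.2 hK1.2) (by simpa using hG1.2)

end Vale.Agent.P002
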