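import Vale.Agent.P002.Defs
import Vale.Agent.P002.Malcev

/-!
One normal subgroup of finite index is diagonalised by every semisimple representation whose image
has a solvable subgroup of bounded index.
-/

open Matrix

namespace Vale.Agent.P002

/-- A finitely generated group has a finite-index normal subgroup inside all subgroups of index
at most `n`. -/
lemma exists_le_index (Γ : Type) [Group Γ] [Group.FG Γ] (n : ℕ) :
    ∃ K : Subgroup Γ, K.Normal ∧ K.FiniteIndex ∧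
      ∀ H : Subgroup Γ, H.index ≠ 0 → H.index ≤ n → K ≤ H := by
  obtain ⟨S, hS, hSfin⟩ := Group.fg_iff.1 (inferInstance : Group.FG Γ)
  have hhom : ∀ m : Fin (n + 1), Finite (Γ →* Equiv.Perm (Fin m)) := fun m => by
    have := hSfin.to_subtype
    exact Finite.of_injective (fun f => fun s : S => f s.1) fun f g h =>
      MonoidHom.eq_of_eqOn_dense hS fun s hs => congrFun h ⟨s, hs⟩
  let K : Subgroup Γ := ⨅ x : (Σ m : Fin (n + 1), Γ →* Equiv.Perm (Fin m)), x.2.ker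
  refine ⟨K, Subgroup.normal_iInf_normal fun x => MonoidHom.normal_ker _,
    Subgroup.finiteIndex_iInf fun x => inferInstance, fun H h0 hle => ?_⟩
  have : H.FiniteIndex := ⟨h0⟩
  let e : Γ ⧸ H ≃ Fin H.index := Finite.equivFinOfCardEq rfl
  let f : Γ →* Equiv.Perm (Fin H.index) :=
    (e.permCongrHom : Equiv.Perm (Γ ⧸ H) →* Equiv.Perm (Fin H.index)).comp
      (MulAction.toPermHom Γ (Γ ⧸ H))
  refine (iInf_le _ (⟨⟨H.index, by omega⟩, f⟩ : Σ m : Fin (n + 1), Γ →* Equiv.Perm (Fin m))).trans ?_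
  refine le_trans ?_ (Subgroup.normalCore_le H)
  rw [Subgroup.normalCore_eq_ker]
  intro g hg
  have h1 : e.permCongrHom (MulAction.toPermHom Γ (Γ ⧸ H) g) = 1 := hg
  exact (map_eq_one_iff _ e.permCongrHom.injective).1 h1

variable {Γ : Type} [Group Γ] {r : ℕ}

lemma cr_range {ρ : Γ →* SpecialLinearGroup (Fin r) ℂ} (h : Semisimple ρ) :
    CR (Set.range fun g => (ρ g).1) := by
  intro U hU
  obtain ⟨W, hW, hc⟩ := h U fun g v hv => hU _ ⟨g, rfl⟩ v hv
  exact ⟨W, fun a ha v hv => by obtain ⟨g, rfl⟩ := ha; exact hW g v hv, hc⟩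

lemma cr_image_normal {ρ : Γ →* SpecialLinearGroup (Fin r) ℂ} (h : Semisimple ρ)
    (N : Subgroup Γ) [hN : N.Normal] : CR ((fun g => (ρ g).1) '' (N : Set Γ)) := by
  refine cr_normal (cr_range h) (Set.image_subset_range _ _) ?_ ?_
  · rintro _ ⟨g, rfl⟩
    simp only [(ρ g).2, isUnit_one]
  · rintro _ ⟨g, rfl⟩ _ ⟨a, ha, rfl⟩
    refine ⟨⟨_, ⟨g⁻¹ * a * g, ?_, rfl⟩, ?_⟩, ⟨_, ⟨g * a * g⁻¹, hN.conj_mem a ha g, rfl⟩, ?_⟩⟩
    · simpa using hN.conj_mem a ha g⁻¹
    · exact congrArg Subtype.val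
        (show ρ a * ρ g = ρ g * ρ (g⁻¹ * a * g) by rw [← map_mul, ← map_mul]; congr 1; group)
    · exact congrArg Subtype.val
        (show ρ g * ρ a = ρ (g * a * g⁻¹) * ρ g by rw [← map_mul, ← map_mul]; congr 1; group)

/-- The uniform diagonalised subgroup. -/
theorem exists_uniform (Γ : Type) [Group Γ] [Group.FG Γ] (r m : ℕ) :
    ∃ K : Subgroup Γ, K.Normal ∧ K.FiniteIndex ∧
      ∀ ρ : Γ →* SpecialLinearGroup (Fin r) ℂ, Semisimple ρ →
        (∃ N : Subgroup Γ, N.index ≠ 0 ∧ N.index ≤ m ∧ Group.IsSolvable (N.map ρ)) →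
        ∃ P : Matrix (Fin r) (Fin r) ℂ, IsUnit P.det ∧
          ∀ k ∈ K, ∃ d : Fin r → ℂ, (ρ k).1 * P = P * Matrix.diagonal d := by
  obtain ⟨K0, hK0n, hK0f, hK0⟩ := exists_le_index Γ m
  obtain ⟨K, hKn, hKf, hK⟩ := exists_le_index Γ (malcevBound r * K0.index)
  refine ⟨K, hKn, hKf, fun ρ hρ ⟨N, hN0, hNle, hsol⟩ => ?_⟩
  set G := K0.map ρ
  have hG : Group.IsSolvable G := by
    have hle : G ≤ N.map ρ := Subgroup.map_mono (hK0 N hN0 hNle)
    exact Group.isSolvable_of_isSolvable_injective (Subgroup.inclusion_injective hle)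
  let φ : G →* Matrix (Fin r) (Fin r) ℂ :=
    { toFun := fun g => g.1.1
      map_one' := rfl
      map_mul' := fun _ _ => rfl }
  have hrange : Set.range φ = (fun g => (ρ g).1) '' (K0 : Set Γ) := by
    ext M
    constructor
    · rintro ⟨⟨_, k, hk, rfl⟩, rfl⟩
      exact ⟨k, hk, rfl⟩
    · rintro ⟨k, hk, rfl⟩
      exact ⟨⟨ρ k, k, hk, rfl⟩, rfl⟩
  obtain ⟨A, hA0, hAle, hAc⟩ := malcev φ (hrange ▸ cr_image_normal hρ K0)
  set g : K0 →* G := ρ.subgroupMap K0
  have hg : Function.Surjective g := ρ.subgroupMap_surjective K0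
  set A' : Subgroup Γ := (A.comap g).map K0.subtype with hA'
  have hidx : A'.index = A.index * K0.index := by
    rw [hA', Subgroup.index_map_subtype, Subgroup.index_comap_of_surjective A hg]
  have hKA : K ≤ A' := hK A'
    (by rw [hidx]; exact mul_ne_zero hA0 hK0f.index_ne_zero)
    (by rw [hidx]; exact Nat.mul_le_mul_right _ hAle)
  obtain ⟨P, hP, hd⟩ := exists_diag (cr_image_normal hρ K) (by
    rintro _ ⟨a, ha, rfl⟩ _ ⟨b, hb, rfl⟩
    obtain ⟨a', ha', rfl⟩ := hKA ha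
    obtain ⟨b', hb', rfl⟩ := hKA hb
    exact hAc _ ha' _ hb')
  exact ⟨P, hP, fun k hk => hd _ ⟨k, hk, rfl⟩⟩

end Vale.Agent.P002
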