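import Vale.Agent.P002.Data
import Vale.Agent.P002.Uniform

/-!
Standard form of a representation diagonal on a normal subgroup of finite index.
-/

open Matrix

namespace Vale.Agent.P002

variable {Γ : Type} [Group Γ] {r : ℕ}

lemma exists_row_ne {A : Matrix (Fin r) (Fin r) ℂ} (h : IsUnit A.det) (i : Fin r) :
    ∃ j, A i j ≠ 0 := by
  by_contra h'
  push Not at h'
  exact h.ne_zero (Matrix.det_eq_zero_of_row_eq_zero i h')

/-- A representation diagonal on `K` is block monomial with a torsion factor system. -/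
theorem exists_standard (K : Subgroup Γ) [hKn : K.Normal] [K.FiniteIndex]
    (ψ : Γ →* Matrix (Fin r) (Fin r) ℂ)
    (hd : ∀ k ∈ K, ∃ d : Fin r → ℂ, ψ k = Matrix.diagonal d) :
    ∃ (D : Datum (Γ ⧸ K) r K.index) (w : Γ ⧸ K → Matrix (Fin r) (Fin r) ℂ)
      (t : Γ → Set.range D.1 → ℂˣ), IsW D w ∧
        ∀ g, ψ g = blockDiag D (fun l => (t g l : ℂ)) * w (QuotientGroup.mk g) := by
  classical
  choose χ hχ using hd
  let f : Fin r → (K → ℂ) := fun i k => χ k.1 k.2 i
  let b : Fin r → Fin r := fun i => Classical.choose (⟨i, rfl⟩ : ∃ j, f j = f i)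
  have hb : ∀ i, f (b i) = f i := fun i =>
    Classical.choose_spec (⟨i, rfl⟩ : ∃ j, f j = f i)
  have hb_eq : ∀ i j, f i = f j → b i = b j := fun i j h => by
    simp only [b]; congr 1; funext m; rw [h]
  have hbf : ∀ i j, b i = b j → f i = f j := fun i j h => by rw [← hb i, h, hb j]
  have hkey : ∀ g i j, ψ g i j ≠ 0 → ∀ k (hk : k ∈ K),
      χ k hk j = χ (g * k * g⁻¹) (hKn.conj_mem k hk g) i := by
    intro g i j hne k hk
    have hc : g * k * g⁻¹ ∈ K := hKn.conj_mem k hk g
    have h1 : ψ (g * k * g⁻¹) * ψ g = ψ g * ψ k := by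
      rw [← map_mul, ← map_mul]; congr 1; group
    rw [hχ _ hc, hχ _ hk] at h1
    have h2 := congrFun (congrFun h1 i) j
    rw [Matrix.diagonal_mul, Matrix.mul_diagonal, mul_comm (χ _ hc i)] at h2
    exact (mul_left_cancel₀ hne h2).symm
  let sec : Γ ⧸ K → Γ := fun a => a.out
  have hsec : ∀ a, (QuotientGroup.mk (sec a) : Γ ⧸ K) = a := fun a => QuotientGroup.out_eq' a
  let s : Γ ⧸ K → Matrix (Fin r) (Fin r) ℂ := fun a => ψ (sec a)
  have hs : ∀ a, IsUnit (s a).det := fun a => isUnit_det_hom ψ _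
  let lb : Fin r → Set.range b := fun i => ⟨b i, i, rfl⟩
  choose σ hσ using fun a i => exists_row_ne (hs a) i
  let pf : Γ ⧸ K → Set.range b → Set.range b := fun a l => lb (σ a l.1)
  have hbb : ∀ i, b (b i) = b i := fun i => hb_eq _ _ (hb i)
  have hlb : ∀ l : Set.range b, lb l.1 = l := fun ⟨_, i, rfl⟩ => Subtype.ext (hbb i)
  have hsupp : ∀ a i j, s a i j ≠ 0 → lb j = pf a (lb i) := by
    intro a i j hne
    refine Subtype.ext (hb_eq _ _ (funext fun k => ?_))
    show χ k.1 k.2 j = χ k.1 k.2 (σ a (b i))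
    rw [hkey _ i j hne k.1 k.2, hkey _ (b i) _ (hσ a (b i)) k.1 k.2]
    exact (congrFun (hb i) ⟨sec a * k.1 * (sec a)⁻¹, hKn.conj_mem k.1 k.2 _⟩).symm
  have hinj : ∀ a, Function.Injective (pf a) := by
    intro a l l' h
    rw [← hlb l, ← hlb l']
    refine Subtype.ext (hb_eq _ _ (funext fun k => ?_))
    have hk' : (sec a)⁻¹ * k.1 * sec a ∈ K := by
      simpa using hKn.conj_mem k.1 k.2 (sec a)⁻¹
    have hbσ : b (σ a l.1) = b (σ a l'.1) := congrArg Subtype.val h
    have h1 := congrFun (hbf _ _ hbσ) ⟨_, hk'⟩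
    simp only [f] at h1
    rw [hkey _ l.1 _ (hσ a l.1) _ hk', hkey _ l'.1 _ (hσ a l'.1) _ hk'] at h1
    have he : sec a * ((sec a)⁻¹ * k.1 * sec a) * (sec a)⁻¹ = k.1 := by group
    simp only [he] at h1
    exact h1
  let p : Γ ⧸ K → Equiv.Perm (Set.range b) := fun a =>
    Equiv.ofBijective (pf a) ⟨hinj a, Finite.injective_iff_surjective.1 (hinj a)⟩
  -- elements of `K` are scalar on blocks
  let κ : (k : Γ) → Set.range b → ℂ := fun k l => if hk : k ∈ K then χ k hk l.1 else 1
  have hκ : ∀ k, k ∈ K → ψ k = Matrix.diagonal fun i => κ k (lb i) := fun k hk => by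
    rw [hχ k hk]
    congr 1
    funext i
    simp only [κ, hk, dif_pos, lb]
    exact (congrFun (hb i) ⟨k, hk⟩).symm
  have hκne : ∀ k l, κ k l ≠ 0 := by
    intro k l
    by_cases hk : k ∈ K
    · have := (isUnit_det_hom ψ k).ne_zero
      rw [hκ k hk, Matrix.det_diagonal, Finset.prod_ne_zero_iff] at this
      simpa [hlb] using this l.1 (Finset.mem_univ _)
    · simp [κ, hk]
  let kk : Γ ⧸ K → Γ ⧸ K → Γ := fun a a' => sec a * sec a' * (sec (a * a'))⁻¹
  have hkk : ∀ a a', kk a a' ∈ K := fun a a' => by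
    rw [← QuotientGroup.eq_one_iff]
    simp [kk, hsec]
  let c0 : Γ ⧸ K → Γ ⧸ K → Set.range b → ℂ := fun a a' => κ (kk a a')
  have hs2 : ∀ a a', s a * s a' = (Matrix.diagonal fun i => c0 a a' (lb i)) * s (a * a') := by
    intro a a'
    rw [← hκ _ (hkk a a'), ← map_mul, ← map_mul]
    congr 1
    simp [kk]
  have hcomm : ∀ a (u : Set.range b → ℂ),
      s a * Matrix.diagonal (fun i => u (lb i)) =
        Matrix.diagonal (fun i => u (p a (lb i))) * s a := by
    intro a u
    ext i j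
    simp only [Matrix.mul_diagonal, Matrix.diagonal_mul]
    by_cases h : s a i j = 0
    · simp [h]
    · rw [hsupp a i j h, mul_comm]; rfl
  have hcoc : ∀ a a' d l, c0 a a' l * c0 (a * a') d l = c0 a' d (p a l) * c0 a (a' * d) l := by
    intro a a' d l
    have h1 : s a * s a' * s d = (Matrix.diagonal fun i => c0 a a' (lb i) * c0 (a * a') d (lb i)) *
        s (a * a' * d) := by
      rw [hs2, Matrix.mul_assoc, hs2, ← Matrix.mul_assoc, Matrix.diagonal_mul_diagonal]
    have h2 : s a * (s a' * s d) =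
        (Matrix.diagonal fun i => c0 a' d (p a (lb i)) * c0 a (a' * d) (lb i)) *
          s (a * a' * d) := by
      rw [hs2, ← Matrix.mul_assoc, hcomm, Matrix.mul_assoc, hs2, ← Matrix.mul_assoc,
        Matrix.diagonal_mul_diagonal, mul_assoc a]
    rw [Matrix.mul_assoc] at h1
    have h3 := congrArg (fun M => (M * (s (a * a' * d))⁻¹) l.1 l.1) (h1.symm.trans h2)
    simpa [Matrix.mul_nonsing_inv_cancel_right _ _ (hs _), hlb] using h3
  have := Fintype.ofFinite (Γ ⧸ K)
  set n := K.index with hn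
  have hn0 : n ≠ 0 := Subgroup.FiniteIndex.index_ne_zero
  have hncard : Fintype.card (Γ ⧸ K) = n := by
    rw [hn, Subgroup.index, Nat.card_eq_fintype_card]
  let Dp : Γ ⧸ K → Set.range b → ℂ := fun a l => ∏ d, c0 a d l
  have hDp : ∀ a l, Dp a l ≠ 0 := fun a l => Finset.prod_ne_zero_iff.2 fun d _ => hκne _ _
  choose e he using fun a l => IsAlgClosed.exists_pow_nat_eq (Dp a l) (Nat.pos_of_ne_zero hn0)
  have hene : ∀ a l, e a l ≠ 0 := fun a l h => hDp a l (by rw [← he a l, h, zero_pow hn0])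
  let c : Γ ⧸ K → Γ ⧸ K → Set.range b → ℂ := fun a a' l =>
    c0 a a' l * e (a * a') l / (e a l * e a' (p a l))
  have hc : ∀ a a' l, c a a' l ^ n = 1 := by
    intro a a' l
    have h1 : c0 a a' l ^ n * Dp (a * a') l = Dp a' (p a l) * Dp a l := by
      calc c0 a a' l ^ n * Dp (a * a') l = ∏ d, c0 a a' l * c0 (a * a') d l := by
            rw [Finset.prod_mul_distrib, Finset.prod_const, Finset.card_univ, hncard]
        _ = ∏ d, c0 a' d (p a l) * c0 a (a' * d) l := Finset.prod_congr rfl fun d _ => hcoc a a' d l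
        _ = _ := by
            rw [Finset.prod_mul_distrib]
            congr 1
            exact Equiv.prod_comp (Equiv.mulLeft a') fun d => c0 a d l
    rw [div_pow, mul_pow, mul_pow, he, he, he, h1, mul_comm]
    exact div_self (mul_ne_zero (hDp _ _) (hDp _ _))
  let D : Datum (Γ ⧸ K) r n := ⟨b, p, fun a a' l => ⟨c a a' l, hc a a' l⟩⟩
  let w : Γ ⧸ K → Matrix (Fin r) (Fin r) ℂ := fun a =>
    (Matrix.diagonal fun i => (e a (lb i))⁻¹) * s a
  refine ⟨D, w, fun g l => Units.mk0 (κ (g * (sec (QuotientGroup.mk g))⁻¹) l *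
    e (QuotientGroup.mk g) l) (mul_ne_zero (hκne _ _) (hene _ _)), ⟨fun a => ?_, fun a i j h => ?_,
    fun a a' => ?_⟩, fun g => ?_⟩
  · rw [Matrix.det_mul, Matrix.det_diagonal]
    exact (isUnit_iff_ne_zero.2 (Finset.prod_ne_zero_iff.2 fun i _ => inv_ne_zero (hene _ _))).mul
      (hs a)
  · simp only [w, Matrix.diagonal_mul] at h
    exact hsupp a i j (mul_ne_zero_iff.1 h).2
  · show w a * w a' = (Matrix.diagonal fun i => c a a' (lb i)) * w (a * a')
    simp only [w]
    rw [Matrix.mul_assoc, ← Matrix.mul_assoc (s a), hcomm a fun l => (e a' l)⁻¹,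
      Matrix.mul_assoc _ (s a), hs2, ← Matrix.mul_assoc, ← Matrix.mul_assoc,
      Matrix.diagonal_mul_diagonal, Matrix.diagonal_mul_diagonal, ← Matrix.mul_assoc,
      Matrix.diagonal_mul_diagonal]
    congr 2
    funext i
    simp only [c]
    field_simp [hene]
  · set a : Γ ⧸ K := QuotientGroup.mk g
    have hk : g * (sec a)⁻¹ ∈ K := by
      rw [← QuotientGroup.eq_one_iff]; simp [hsec, a]
    show ψ g = (Matrix.diagonal fun i => κ (g * (sec a)⁻¹) (lb i) * e a (lb i)) *
      ((Matrix.diagonal fun i => (e a (lb i))⁻¹) * s a)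
    rw [← Matrix.mul_assoc, Matrix.diagonal_mul_diagonal]
    calc ψ g = ψ (g * (sec a)⁻¹) * ψ (sec a) := by rw [← map_mul]; congr 1; group
      _ = _ := by
          rw [hκ _ hk]
          congr 2
          funext i
          rw [mul_inv_cancel_right₀ (hene _ _)]

end Vale.Agent.P002
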