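import Vale.Agent.P002.Defs
import Vale.Agent.P002.Standard
import Vale.Agent.P002.Family
import Vale.Agent.P002.Integral

/-!
Integral points over one number field are dense among representations diagonalisable on a fixed
normal subgroup of finite index.
-/

open Matrix

namespace Vale.Agent.P002

lemma coe_mul' {r : ℕ} (A B : SpecialLinearGroup (Fin r) ℂ) : (A * B).1 = A.1 * B.1 := rfl

lemma coe_one' {r : ℕ} : (1 : SpecialLinearGroup (Fin r) ℂ).1 = 1 := rfl

lemma coe_pow' {r : ℕ} (A : SpecialLinearGroup (Fin r) ℂ) (k : ℕ) : (A ^ k).1 = A.1 ^ k :=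
  Matrix.SpecialLinearGroup.coe_pow A k

/-- A unit of infinite order. -/
lemma exists_unit : ∃ u : ℂˣ, IsIntegral ℤ (u : ℂ) ∧ IsIntegral ℤ ((u⁻¹ : ℂˣ) : ℂ) ∧
    Function.Injective fun k : ℤ => u ^ k := by
  have hs : (Real.sqrt 2 : ℂ) ^ 2 = 2 := by
    rw [← Complex.ofReal_pow, Real.sq_sqrt (by norm_num)]; norm_num
  have hint : IsIntegral ℤ (Real.sqrt 2 : ℂ) :=
    IsIntegral.of_pow (n := 2) (by norm_num) (by rw [hs]; exact isIntegral_algebraMap (x := (2 : ℤ)))
  let u : ℂˣ := ⟨1 + Real.sqrt 2, Real.sqrt 2 - 1, by linear_combination hs,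
    by linear_combination hs⟩
  refine ⟨u, isIntegral_one.add hint, hint.sub isIntegral_one, fun a b h => ?_⟩
  have h1 := congrArg (fun x : ℂˣ => ‖(x : ℂ)‖) h
  simp only [Units.val_zpow_eq_zpow_val, norm_zpow] at h1
  have hn : ‖(u : ℂ)‖ = 1 + Real.sqrt 2 := by
    show ‖(1 : ℂ) + Real.sqrt 2‖ = _
    rw [show (1 : ℂ) + Real.sqrt 2 = ((1 + Real.sqrt 2 : ℝ) : ℂ) by push_cast; ring,
      Complex.norm_real, Real.norm_eq_abs, abs_of_pos (by positivity)]
  rw [hn] at h1
  exact zpow_right_injective₀ (by positivity) (by linarith [Real.sqrt_pos.2 (show (0:ℝ) < 2 by norm_num)]) h1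

variable {Γ : Type} [Group Γ] {r s n : ℕ} {K : Subgroup Γ} [K.Normal]

omit [K.Normal] in
/-- The monomials of a datum are controlled by finitely many variables. -/
lemma rel_fg [Group.FG Γ] (D : Datum (Γ ⧸ K) r n) (γ : Fin s → Γ) (m : ℕ) :
    ∃ S : Finset (Γ × Set.range D.1), ∀ x, Finsupp.single x 1 ∈
      AddSubgroup.closure (Rel D γ m) ⊔
        AddSubgroup.closure ((fun y => Finsupp.single y 1) '' (S : Set (Γ × Set.range D.1))) := by
  classical
  obtain ⟨G, hG⟩ := (Group.fg_iff_monoid_fg.1 (inferInstance : Group.FG Γ)).fg_top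
  refine ⟨insert 1 G ×ˢ Finset.univ, ?_⟩
  rintro ⟨g, l⟩
  set H := AddSubgroup.closure (Rel D γ m) ⊔ AddSubgroup.closure
    ((fun y => Finsupp.single y 1) '' ((insert 1 G ×ˢ Finset.univ : Finset (Γ × Set.range D.1)) :
      Set (Γ × Set.range D.1)))
  have hg : g ∈ Submonoid.closure (G : Set Γ) := hG ▸ Submonoid.mem_top g
  suffices ∀ l, (Finsupp.single (g, l) (1 : ℤ)) ∈ H from this l
  induction hg using Submonoid.closure_induction with
  | mem x hx => exact fun l => AddSubgroup.mem_sup_right (AddSubgroup.subset_closure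
      ⟨(x, l), Finset.mem_coe.2 (Finset.mem_product.2 ⟨Finset.mem_insert_of_mem hx,
        Finset.mem_univ l⟩), rfl⟩)
  | one => exact fun l => AddSubgroup.mem_sup_right (AddSubgroup.subset_closure
      ⟨(1, l), Finset.mem_coe.2 (Finset.mem_product.2 ⟨Finset.mem_insert_self _ _,
        Finset.mem_univ l⟩), rfl⟩)
  | mul x y _ _ hx hy =>
    intro l
    have he : Finsupp.single (x * y, l) (1 : ℤ) = Finsupp.single (x, l) 1 +
        Finsupp.single (y, D.2.1 (QuotientGroup.mk x) l) 1 -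
        (Finsupp.single (x, l) 1 + Finsupp.single (y, D.2.1 (QuotientGroup.mk x) l) 1 -
          Finsupp.single (x * y, l) 1) := by abel
    rw [he]
    exact H.sub_mem (H.add_mem (hx _) (hy _))
      (AddSubgroup.mem_sup_left (AddSubgroup.subset_closure (Or.inl (Or.inl ⟨x, y, l, rfl⟩))))

/-- A common order for roots that are roots of unity, for finitely many polynomials. -/
lemma exists_exponent_poly (p : Fin s → Polynomial ℂ) (hp : ∀ j, p j ≠ 0)
    (h : ∀ j z, (p j).IsRoot z → ∃ n : ℕ, 0 < n ∧ z ^ n = 1) :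
    ∃ q : ℕ, 0 < q ∧ ∀ j z, (p j).IsRoot z → z ^ q = 1 := by
  classical
  choose e he0 he1 using h
  let E : Fin s → ℕ := fun j => ∏ z ∈ (p j).roots.toFinset.attach,
    e j z.1 ((Polynomial.mem_roots (hp j)).1 (Multiset.mem_toFinset.1 z.2))
  refine ⟨∏ j, E j, Finset.prod_pos fun j _ => Finset.prod_pos fun z _ => he0 _ _ _,
    fun j z hz => ?_⟩
  have hz' : z ∈ (p j).roots.toFinset := Multiset.mem_toFinset.2 ((Polynomial.mem_roots (hp j)).2 hz)
  have hdvd : e j z hz ∣ ∏ j, E j :=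
    (Finset.dvd_prod_of_mem _ (Finset.mem_attach _ ⟨z, hz'⟩)).trans
      (Finset.dvd_prod_of_mem E (Finset.mem_univ j))
  obtain ⟨k, hk⟩ := hdvd
  rw [hk, pow_mul, he1, one_pow]

/-- Quasi-unipotence with one exponent for finitely many matrices. -/
lemma exists_exponent (M : Fin s → SpecialLinearGroup (Fin r) ℂ) (hM : ∀ j, QuasiUnipotent (M j)) :
    ∃ q : ℕ, 0 < q ∧ ∀ j z, (M j).1.charpoly.IsRoot z → z ^ q = 1 :=
  exists_exponent_poly (fun j => (M j).1.charpoly)
    (fun j => (Matrix.charpoly_monic (M j).1).ne_zero) hM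

/-- Roots of unity of order dividing `q` kill the diagonal part of a power. -/
lemma pow_eq_one_of_roots {A : Matrix (Fin r) (Fin r) ℂ} {q n : ℕ}
    (hroot : ∀ z, A.charpoly.IsRoot z → z ^ q = 1) {d : Fin r → ℂ}
    (hd : A ^ n = Matrix.diagonal d) : A ^ (n * q) = 1 := by
  have hdvd : A.charpoly ∣ (Polynomial.X ^ q - 1) ^ A.charpoly.roots.card := by
    conv_lhs => rw [(IsAlgClosed.splits A.charpoly).eq_prod_roots_of_monic A.charpoly_monic]
    rw [← Multiset.prod_replicate, ← Multiset.map_const']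
    refine Multiset.prod_dvd_prod_of_dvd _ _ fun z hz => ?_
    rw [Polynomial.dvd_iff_isRoot]
    simp [hroot z (Polynomial.mem_roots'.1 hz).2]
  obtain ⟨P, hP⟩ := hdvd
  have h1 : (A ^ q - 1) ^ A.charpoly.roots.card = 0 := by
    have := congrArg (Polynomial.aeval A) hP
    simpa [Matrix.aeval_self_charpoly] using this
  have h2 : (A ^ (n * q) - 1) ^ A.charpoly.roots.card = 0 := by
    have hg : A ^ (n * q) - 1 = (A ^ q - 1) * ∑ i ∈ Finset.range n, (A ^ q) ^ i := by
      rw [mul_geom_sum, ← pow_mul, mul_comm q n]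
    rw [hg, Commute.mul_pow (Commute.sum_right _ _ _ fun i _ => ((Commute.refl _).sub_left
      (Commute.one_left _)).pow_right i), h1, zero_mul]
  rw [pow_mul, hd, Matrix.diagonal_pow] at h2 ⊢
  rw [← Matrix.diagonal_one, Matrix.diagonal_sub, Matrix.diagonal_pow] at h2
  rw [← Matrix.diagonal_one]
  congr 1
  funext i
  have := congrFun (congrFun h2 i) i
  simp only [Matrix.diagonal_apply_eq, Matrix.zero_apply, Pi.pow_apply] at this
  exact sub_eq_zero.1 (pow_eq_zero_iff'.1 this).1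

/-- Transporting invariant values along an intertwiner. -/
lemma exists_conj_hom {ρ : Γ →* SpecialLinearGroup (Fin r) ℂ} {ψ : Γ → Matrix (Fin r) (Fin r) ℂ}
    {P : Matrix (Fin r) (Fin r) ℂ} (hP : IsUnit P.det) (h : ∀ g, (ρ g).1 * P = P * ψ g) :
    ∃ Q : SpecialLinearGroup (Fin r) ℂ,
      ∀ g, (((MulAut.conj Q).toMonoidHom.comp ρ) g).1 = ψ g := by
  obtain ⟨μ, hμ0, hμ⟩ := exists_scale hP
  refine ⟨(⟨μ • P, hμ⟩ : SpecialLinearGroup (Fin r) ℂ)⁻¹, fun g => ?_⟩
  set R : SpecialLinearGroup (Fin r) ℂ := ⟨μ • P, hμ⟩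
  show (R⁻¹ * ρ g * R⁻¹⁻¹).1 = ψ g
  rw [inv_inv]
  show (R⁻¹).1 * (ρ g).1 * (μ • P) = ψ g
  rw [Matrix.mul_assoc]
  rw [Matrix.mul_smul, h, ← Matrix.smul_mul, ← Matrix.mul_assoc]
  show (R⁻¹).1 * R.1 * ψ g = ψ g
  rw [show (R⁻¹).1 * R.1 = 1 from congrArg Subtype.val (inv_mul_cancel R), one_mul]

lemma finite_datum (Q : Type) [Finite Q] (r : ℕ) {n : ℕ} (hn : n ≠ 0) : Finite (Datum Q r n) := by
  have : Finite {z : ℂ // z ^ n = 1} := by
    refine (Set.Finite.subset (Polynomial.nthRoots n (1 : ℂ)).toFinset.finite_toSet fun z hz => ?_).to_subtype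
    simp [Polynomial.mem_nthRoots (Nat.pos_of_ne_zero hn), show z ^ n = 1 from hz]
  infer_instance

/-- Density on the diagonalisable locus of a fixed normal subgroup. -/
theorem dense_diag [Group.FG Γ] [K.FiniteIndex] (γ : Fin s → Γ)
    (M : Fin s → SpecialLinearGroup (Fin r) ℂ) (hM : ∀ j, QuasiUnipotent (M j)) :
    ∃ L : IntermediateField ℚ ℂ, FiniteDimensional ℚ L ∧
      ∀ F : MvPolynomial (Γ × Fin r × Fin r) ℂ, Invariant F →
        (∀ ρ, InY γ M ρ → IntegralPoint L ρ → MvPolynomial.aeval (coord ρ) F = 0) →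
        ∀ ρ, InY γ M ρ → (∃ P : Matrix (Fin r) (Fin r) ℂ, IsUnit P.det ∧
            ∀ k ∈ K, ∃ d : Fin r → ℂ, (ρ k).1 * P = P * Matrix.diagonal d) →
          MvPolynomial.aeval (coord ρ) F = 0 := by
  classical
  set n := K.index with hn
  have hn0 : n ≠ 0 := Subgroup.FiniteIndex.index_ne_zero
  obtain ⟨q, hq, hroot⟩ := exists_exponent M hM
  set m := n * q with hm
  have hmK : ∀ j, γ j ^ m ∈ K := fun j => by
    rw [hm, pow_mul]; exact K.pow_mem (K.pow_index_mem _) _
  have := Fintype.ofFinite (Γ ⧸ K)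
  have := finite_datum (Γ ⧸ K) r hn0
  have := Fintype.ofFinite (Datum (Γ ⧸ K) r n)
  choose W hWw hWc using fun D : Datum (Γ ⧸ K) r n => exists_models D hn0
  choose S hS using fun D : Datum (Γ ⧸ K) r n => rel_fg D γ m
  choose a N ψ hN0 hfam using fun D : Datum (Γ ⧸ K) r n => exists_family _ _ (hS D)
  set T := (∏ D, N D) * (n * n) with hT
  have hT0 : 0 < T := Nat.pos_of_ne_zero
    (mul_ne_zero (Finset.prod_ne_zero_iff.2 fun D _ => hN0 D) (mul_ne_zero hn0 hn0))
  obtain ⟨u, hu, hu', huinj⟩ := exists_unit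
  let gens : Finset ℂ :=
    {(u : ℂ)} ∪ (Polynomial.nthRoots T (1 : ℂ)).toFinset ∪
      Finset.univ.biUnion fun D : Datum (Γ ⧸ K) r n => (W D).biUnion fun w0 =>
        Finset.univ.image fun x : (Γ ⧸ K) × Fin r × Fin r => ((w0 x.1 x.2.1 x.2.2 : Qb) : ℂ)
  let L : IntermediateField ℚ ℂ := IntermediateField.adjoin ℚ (gens : Set ℂ)
  have hgen : ∀ x ∈ gens, x ∈ L := fun x hx => IntermediateField.subset_adjoin _ _ hx
  have hLfin : FiniteDimensional ℚ L := by
    refine IntermediateField.finiteDimensional_adjoin fun x hx => ?_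
    simp only [gens, Finset.coe_union, Set.mem_union, Finset.coe_singleton, Set.mem_singleton_iff,
      Finset.mem_coe, Finset.mem_biUnion, Finset.mem_image, Finset.mem_univ, true_and,
      Multiset.mem_toFinset, Polynomial.mem_nthRoots hT0] at hx
    rcases hx with (rfl | hx) | ⟨D, w0, -, y, rfl⟩
    · exact hu.tower_top
    · exact IsIntegral.of_pow hT0 (hx ▸ isIntegral_one)
    · exact (mem_algebraicClosure_iff.1 (w0 y.1 y.2.1 y.2.2).2).isIntegral
  refine ⟨L, hLfin, fun F hF hvan ρ hρY hP => ?_⟩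
  obtain ⟨P, hP, hPd⟩ := hP
  -- standard form
  let ψ0 : Γ →* Matrix (Fin r) (Fin r) ℂ :=
    { toFun := fun g => P⁻¹ * (ρ g).1 * P
      map_one' := by
        rw [map_one]
        show P⁻¹ * 1 * P = 1
        rw [mul_one, Matrix.nonsing_inv_mul _ hP]
      map_mul' := fun g h => by
        rw [map_mul]
        show P⁻¹ * ((ρ g).1 * (ρ h).1) * P = P⁻¹ * (ρ g).1 * P * (P⁻¹ * (ρ h).1 * P)
        simp only [Matrix.mul_assoc]
        rw [Matrix.mul_nonsing_inv_cancel_left _ _ hP] }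
  obtain ⟨D, w, t, hw, hψ⟩ := exists_standard K ψ0 fun k hk => by
    obtain ⟨d, hd⟩ := hPd k hk
    exact ⟨d, show P⁻¹ * (ρ k).1 * P = _ by
      rw [Matrix.mul_assoc, hd, Matrix.nonsing_inv_mul_cancel_left _ _ hP]⟩
  obtain ⟨w0, hw0mem, P1, hP1, hP1c, hP1w⟩ := hWc D w hw
  set wc : Γ ⧸ K → Matrix (Fin r) (Fin r) ℂ := fun b => (w0 b).map (fun z : Qb => (z : ℂ)) with hwc
  have hwc' : IsW D wc := hWw D w0 hw0mem
  let t0 : Γ × Set.range D.1 → ℂˣ := fun x => t x.1 x.2
  obtain ⟨Q0, hQ0⟩ := exists_conj_hom (ρ := ρ) (P := P * P1) (ψ := twist D wc t0)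
    (by rw [Matrix.det_mul]; exact hP.mul hP1) fun g => by
      have h1 : (ρ g).1 * P = P * ψ0 g := by
        show (ρ g).1 * P = P * (P⁻¹ * (ρ g).1 * P)
        rw [Matrix.mul_assoc P⁻¹, Matrix.mul_nonsing_inv_cancel_left _ _ hP]
      rw [← Matrix.mul_assoc, h1, Matrix.mul_assoc, hψ, Matrix.mul_assoc (blockDiag D _), hP1w,
        ← Matrix.mul_assoc (blockDiag D _), ← hP1c, twist]
      simp only [Matrix.mul_assoc]
      rfl
  set ρ0 := (MulAut.conj Q0).toMonoidHom.comp ρ with hρ0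
  rw [← hF ρ Q0, ← hρ0]
  have hwdiag : wc 1 = blockDiag D fun l => (D.2.2 1 1 l).1 := w_one hwc'
  have hdiagK : ∀ (t' : Γ × Set.range D.1 → ℂˣ) (σ : Γ →* SpecialLinearGroup (Fin r) ℂ),
      (∀ g, (σ g).1 = twist D wc t' g) → ∀ k ∈ K,
      ∃ d : Fin r → ℂ, (σ k).1 * 1 = 1 * Matrix.diagonal d := by
    intro t' σ hσ k hk
    refine ⟨fun i => (t' (k, lab D i) : ℂ) * (D.2.2 1 1 (lab D i)).1, ?_⟩
    rw [mul_one, one_mul, hσ, twist, (QuotientGroup.eq_one_iff _).2 hk, hwdiag,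
      blockDiag_mul_blockDiag]
    rfl
  -- the boundary powers
  have hcp : ∀ j, (ρ0 (γ j)).1.charpoly = (M j).1.charpoly := by
    intro j
    obtain ⟨R, hR⟩ := hρY.2 j
    have h : ρ0 (γ j) = (Q0 * R) * M j * (Q0 * R)⁻¹ := by
      show Q0 * ρ (γ j) * Q0⁻¹ = _
      rw [hR]; group
    rw [h]
    have hu1 : IsUnit (Q0 * R : SpecialLinearGroup (Fin r) ℂ).1 :=
      (Matrix.isUnit_iff_isUnit_det _).2 (by rw [(Q0 * R).2]; exact isUnit_one)
    obtain ⟨v, hv⟩ := hu1
    have hv' : ((Q0 * R)⁻¹ : SpecialLinearGroup (Fin r) ℂ).1 = (v : Matrix (Fin r) (Fin r) ℂ)⁻¹ := by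
      rw [hv]; exact (Matrix.inv_eq_left_inv (congrArg Subtype.val (inv_mul_cancel (Q0 * R)))).symm
    rw [coe_mul', coe_mul', hv', ← hv, Matrix.charpoly_units_conj]
  have hpow0 : ∀ j, ρ0 (γ j) ^ m = 1 := by
    intro j
    refine Subtype.ext ?_
    rw [coe_pow']
    obtain ⟨d, hd⟩ := hdiagK t0 ρ0 hQ0 _ (K.pow_index_mem (γ j))
    rw [mul_one, one_mul, map_pow, coe_pow'] at hd
    exact pow_eq_one_of_roots (fun z hz => hroot j z (by rw [← hcp j]; exact hz)) hd
  have hmul : ∀ g h, twist D wc t0 g * twist D wc t0 h = twist D wc t0 (g * h) := fun g h => by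
    rw [← hQ0, ← hQ0, ← hQ0, map_mul, coe_mul']
  have hdet : ∀ g, (twist D wc t0 g).det = 1 := fun g => by rw [← hQ0]; exact (ρ0 g).2
  have hpow : ∀ j, twist D wc t0 (γ j ^ m) = 1 := fun j => by
    rw [← hQ0, map_pow, hpow0, coe_one']
  obtain ⟨ω, z0, hω, ht0, hz⟩ := hfam D (n * n) t0
    (fun v hv => rel_torsion hwc' hmul hdet hpow hmK v hv)
  let tz : (Fin (a D) → ℂˣ) → Γ × Set.range D.1 → ℂˣ := fun z x => ω x * ∏ k, z k ^ ψ D x k
  choose σ hσ hσpow using fun z => exists_rep hwc' hmul hdet hpow (hz z)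
  have hσ0 : σ z0 = ρ0 := by
    refine MonoidHom.ext fun g => Subtype.ext ?_
    rw [hσ, hQ0, show (fun x => ω x * ∏ k, z0 k ^ ψ D x k) = t0 from funext fun x => (ht0 x).symm]
  -- the entries and characteristic polynomials are regular on the torus
  have hcoord : ∀ x, (fun z => coord (σ z) x) ∈ RegFun (a D) := by
    rintro ⟨g, i, k⟩
    have e : (fun z => coord (σ z) (g, i, k)) =
        ((ω (g, lab D i) : ℂ) * wc (QuotientGroup.mk g) i k) •
          fun z : Fin (a D) → ℂˣ => ((∏ l, z l ^ ψ D (g, lab D i) l : ℂˣ) : ℂ) := by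
      funext z
      simp only [coord, hσ, twist, blockDiag, Matrix.diagonal_mul, Pi.smul_apply, smul_eq_mul,
        Units.val_mul]
      ring
    rw [e]
    exact Subalgebra.smul_mem _ (regFun_monomial _) _
  have hcoeff : ∀ j k, (fun z => (σ z (γ j)).1.charpoly.coeff k) ∈ RegFun (a D) := by
    intro j k
    let Mz : Matrix (Fin r) (Fin r) (RegFun (a D)) :=
      Matrix.of fun i l => ⟨_, hcoord (γ j, i, l)⟩
    have e : (fun z => (σ z (γ j)).1.charpoly.coeff k) =
        ((Mz.charpoly.coeff k : RegFun (a D)) : (Fin (a D) → ℂˣ) → ℂ) := by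
      funext z
      let ev : RegFun (a D) →+* ℂ := (Pi.evalRingHom (fun _ : Fin (a D) → ℂˣ => ℂ) z).comp
        (RegFun (a D)).val.toRingHom
      show _ = ev (Mz.charpoly.coeff k)
      rw [← Polynomial.coeff_map, ← Matrix.charpoly_map]
      rfl
    rw [e]
    exact SetLike.coe_mem _
  have hFreg : (fun z => MvPolynomial.aeval (coord (σ z)) F) ∈ RegFun (a D) := by
    let Fv : RegFun (a D) := MvPolynomial.aeval (fun x => ⟨_, hcoord x⟩) F
    have e : (fun z => MvPolynomial.aeval (coord (σ z)) F) =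
        (Fv : (Fin (a D) → ℂˣ) → ℂ) := by
      funext z
      let ev : RegFun (a D) →ₐ[ℂ] ℂ :=
        (Pi.evalAlgHom ℂ (fun _ : Fin (a D) → ℂˣ => ℂ) z).comp (RegFun (a D)).val
      show _ = ev Fv
      exact (congrArg (fun f => f F)
        (MvPolynomial.comp_aeval (fun x => (⟨_, hcoord x⟩ : RegFun (a D))) ev)).symm
    rw [e]
    exact SetLike.coe_mem _
  -- the possible characteristic polynomials
  let Sd : Finset (Polynomial ℂ) := (Fintype.piFinset fun _ : Fin r =>
    (Polynomial.nthRoots m (1 : ℂ)).toFinset).image fun d =>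
      ∏ i, (Polynomial.X - Polynomial.C (d i))
  have hm0 : 0 < m := Nat.mul_pos (Nat.pos_of_ne_zero hn0) hq
  have hdiagz : ∀ z j, ∃ Q : Matrix (Fin r) (Fin r) ℂ, IsUnit Q.det ∧
      ∃ d : Fin r → ℂ, (σ z (γ j)).1 * Q = Q * Matrix.diagonal d :=
    fun z j => diag_of_diag (σ z) K (P := 1) (by simp) (hdiagK _ _ (hσ z)) (γ j)
  have hSd : ∀ z j, (σ z (γ j)).1.charpoly ∈ Sd := by
    intro z j
    obtain ⟨Q, hQ, d, hd⟩ := hdiagz z j
    refine Finset.mem_image.2 ⟨d, Fintype.mem_piFinset.2 fun i => ?_, (charpoly_of_diag hQ hd).symm⟩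
    rw [Multiset.mem_toFinset, Polynomial.mem_nthRoots hm0]
    have hp : ∀ p : ℕ, (σ z (γ j)).1 ^ p * Q = Q * (Matrix.diagonal d) ^ p := by
      intro p
      induction p with
      | zero => simp
      | succ p ih => rw [pow_succ, pow_succ, Matrix.mul_assoc, hd, ← Matrix.mul_assoc, ih,
          Matrix.mul_assoc]
    have h1 := hp m
    rw [← coe_pow', hσpow, coe_one', one_mul] at h1
    have h2 := congrArg (fun X => (Q⁻¹ * X) i i) h1
    simp only [Matrix.nonsing_inv_mul_cancel_left _ _ hQ, Matrix.nonsing_inv_mul _ hQ,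
      Matrix.diagonal_pow, Matrix.diagonal_apply_eq, Matrix.one_apply_eq, Pi.pow_apply] at h2
    exact h2.symm
  have hsep : ∀ (j : Fin s) (p : Polynomial ℂ), ∃ k, p ≠ (M j).1.charpoly →
      p.coeff k ≠ (M j).1.charpoly.coeff k := by
    intro j p
    by_cases h : p = (M j).1.charpoly
    · exact ⟨0, fun h' => absurd h h'⟩
    · by_contra hk
      push Not at hk
      exact h (Polynomial.ext fun k => (hk k).2)
  choose ks hks using hsep
  let G : (Fin (a D) → ℂˣ) → ℂ := fun z => MvPolynomial.aeval (coord (σ z)) F *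
    ∏ j, ∏ p ∈ Sd.erase (M j).1.charpoly, ((σ z (γ j)).1.charpoly.coeff (ks j p) - p.coeff (ks j p))
  have hGreg : G ∈ RegFun (a D) := by
    have e : G = (fun z => MvPolynomial.aeval (coord (σ z)) F) *
        ∏ j, ∏ p ∈ Sd.erase (M j).1.charpoly, ((fun z => (σ z (γ j)).1.charpoly.coeff (ks j p)) -
          algebraMap ℂ ((Fin (a D) → ℂˣ) → ℂ) (p.coeff (ks j p))) := by
      funext z
      simp [G, Finset.prod_apply]
    rw [e]
    exact mul_mem hFreg (prod_mem fun j _ => prod_mem fun p _ =>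
      sub_mem (hcoeff j _) (Subalgebra.algebraMap_mem _ _))
  have hG0 : G = 0 := by
    refine regFun_eq_zero hGreg u huinj fun mm => ?_
    set z : Fin (a D) → ℂˣ := fun k => u ^ mm k
    by_cases hall : ∀ j, (σ z (γ j)).1.charpoly = (M j).1.charpoly
    · have hY : InY γ M (σ z) := by
        refine ⟨semisimple_of_diag (σ z) K (P := 1) (by simp) (hdiagK _ _ (hσ z)), fun j => ?_⟩
        obtain ⟨Q1, hQ1, d1, hd1⟩ := hdiagz z j
        obtain ⟨Q2, hQ2, d2, hd2⟩ := diag_of_diag ρ K hP hPd (γ j)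
        obtain ⟨R, hR⟩ := hρY.2 j
        have hcp2 : (σ z (γ j)).1.charpoly = (ρ (γ j)).1.charpoly := by
          rw [hall j, ← hcp j]
          show (ρ0 (γ j)).1.charpoly = _
          obtain ⟨Q3, hQ3, d3, hd3⟩ := hdiagz z0 j
          rw [hσ0] at hd3
          rw [charpoly_of_diag hQ2 hd2]
          have h4 : (ρ0 (γ j)).1 * ((Q0 : Matrix (Fin r) (Fin r) ℂ) * Q2) =
              ((Q0 : Matrix (Fin r) (Fin r) ℂ) * Q2) * Matrix.diagonal d2 := by
            show (Q0 * ρ (γ j) * Q0⁻¹).1 * (Q0.1 * Q2) = _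
            rw [← Matrix.mul_assoc, ← coe_mul', inv_mul_cancel_right,
              coe_mul', Matrix.mul_assoc, hd2, Matrix.mul_assoc]
          exact charpoly_of_diag (by rw [Matrix.det_mul, Q0.2, one_mul]; exact hQ2) h4
        obtain ⟨R', hR'⟩ := conj_of_charpoly hQ1 hQ2 hd1 hd2 hcp2
        exact ⟨R' * R, by rw [hR', hR]; group⟩
      have hint : IntegralPoint L (σ z) := by
        have hωint : ∀ x, IsIntegral ℤ ((ω x : ℂˣ) : ℂ) ∧ ((ω x : ℂˣ) : ℂ) ∈ L := by
          intro x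
          have hp : ((ω x : ℂˣ) : ℂ) ^ T = 1 := by
            obtain ⟨c, hc⟩ := Finset.dvd_prod_of_mem N (Finset.mem_univ D)
            have e : T = (N D * (n * n)) * c := by rw [hT, hc]; ring
            rw [e, pow_mul, ← Units.val_pow_eq_pow_val, hω, Units.val_one, one_pow]
          exact ⟨IsIntegral.of_pow hT0 (hp ▸ isIntegral_one), hgen _ (Finset.mem_union_left _
            (Finset.mem_union_right _ (Multiset.mem_toFinset.2
              ((Polynomial.mem_nthRoots hT0).2 hp))))⟩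
        have huk : ∀ k : ℤ, IsIntegral ℤ ((u ^ k : ℂˣ) : ℂ) ∧ ((u ^ k : ℂˣ) : ℂ) ∈ L := by
          intro k
          refine ⟨?_, ?_⟩
          · rcases Int.eq_nat_or_neg k with ⟨p, hk | hk⟩
            · rw [hk, zpow_natCast, Units.val_pow_eq_pow_val]; exact hu.pow p
            · rw [hk, _root_.zpow_neg, zpow_natCast, ← inv_pow, Units.val_pow_eq_pow_val]; exact hu'.pow p
          · rw [Units.val_zpow_eq_zpow_val]
            exact zpow_mem (hgen _ (Finset.mem_union_left _ (Finset.mem_union_left _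
              (Finset.mem_singleton_self _)))) k
        have htI : ∀ x, IsIntegral ℤ ((tz z x : ℂˣ) : ℂ) ∧ ((tz z x : ℂˣ) : ℂ) ∈ L := by
          intro x
          simp only [tz, z, ← _root_.zpow_mul, Units.val_mul, Units.coe_prod]
          exact ⟨(hωint x).1.mul (IsIntegral.prod _ fun k _ => (huk _).1),
            L.mul_mem (hωint x).2 (prod_mem fun k _ => (huk _).2)⟩
        refine integralPoint hn0 D wc hwc' L (fun b i k => hgen _ ?_) (fun g l => tz z (g, l))
          (fun g l => (htI (g, l)).2) (fun g l => (htI (g, l)).1) (σ z) (hσ z)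
        exact Finset.mem_union_right _ (Finset.mem_biUnion.2 ⟨D, Finset.mem_univ _,
          Finset.mem_biUnion.2 ⟨w0, hw0mem, Finset.mem_image.2 ⟨(b, i, k), Finset.mem_univ _, rfl⟩⟩⟩)
      show _ * _ = _
      rw [hvan _ hY hint, zero_mul]
    · push Not at hall
      obtain ⟨j, hj⟩ := hall
      show _ * _ = _
      rw [Finset.prod_eq_zero (Finset.mem_univ j) (Finset.prod_eq_zero
        (f := fun p => (σ z (γ j)).1.charpoly.coeff (ks j p) - p.coeff (ks j p))
        (Finset.mem_erase.2 ⟨hj, hSd z j⟩) (sub_self _)), mul_zero]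
  have hz0 := congrFun hG0 z0
  simp only [G, Pi.zero_apply, hσ0, mul_eq_zero] at hz0
  refine hz0.resolve_right fun h => ?_
  obtain ⟨j, -, hj⟩ := Finset.prod_eq_zero_iff.1 h
  obtain ⟨p, hp, hp0⟩ := Finset.prod_eq_zero_iff.1 hj
  rw [hcp j, sub_eq_zero] at hp0
  exact hks j p (Finset.mem_erase.1 hp).1 hp0.symm

end Vale.Agent.P002
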